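import Vale.Agent.P011.E6W.H684.P1d
import Vale.Agent.P011.E6I.Fx
import Vale.Agent.P011.E6.Lanczos

/-!
Block E6W (B1): the matrices `A + t w B`; the restriction of `σ` to the fixed field of `ρ`.
-/

open Matrix Polynomial

namespace Vale.Agent.P011.E6W.H684

open Vale.Agent.P011.MPQ hiding mat
open Vale.Agent.P011.D4 Vale.Agent.P011.D4.Oct Vale.Agent.P011.E6
open Vale.Agent.P011.E6.Alb
open Vale.Agent.P011.E6I (MQ toMQ toMQ_apply Mp S0 S1 S2 FixK S0_transpose S1_transpose
  S2_transpose)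
open Vale.Agent.P011.E6I.Fx (FixL MpL det_S0 mul_S0 eq_of_comm)
open Vale.Agent.P011.E6O (KK mkK KK_fix KK_ext)

section ph

variable {k F : Type} [Field k] [Field F] [Algebra k F] {a b : kˣ}

theorem scw_scw {w : Qt a b} {u : k} (hww : w * w = u • (1 : Qt a b)) :
    scw F w * scw F w = algebraMap k F u • (1 : MQ F a b) := by
  have hwwE : qup F w * qup F w = algebraMap k F u • (1 : Qt (up F a) (up F b)) := by
    rw [← qup_mul, hww, qup_smul, qup_one]
  apply Matrix.ext
  intro i j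
  rw [scw_mul_apply, Matrix.smul_apply, scw, E6I.sc, Matrix.one_apply]
  by_cases h : i = j
  · subst h
    rw [Matrix.diagonal_apply_eq, hwwE, if_pos rfl]
  · rw [Matrix.diagonal_apply_ne _ h, if_neg h, mul_zero, smul_zero]

theorem phE_mul {t : F} {kap : k} (ht : t * t = algebraMap k F kap) {w : Qt a b} {u : k}
    (hww : w * w = u • (1 : Qt a b)) {A B : Matrix (Fin 3) (Fin 3) k} (hAB : A * B = B * A) :
    phE t w A B * phE (-t) w A B =
      toMQ ((A * A - (kap * u) • (B * B)).map (algebraMap k F)) := by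
  have hAB' : A.map (algebraMap k F) * B.map (algebraMap k F) =
      B.map (algebraMap k F) * A.map (algebraMap k F) := by
    rw [← Matrix.map_mul, ← Matrix.map_mul, hAB]
  have e1 : (A * A - (kap * u) • (B * B)).map (algebraMap k F) =
      A.map (algebraMap k F) * A.map (algebraMap k F) -
        (t * t * algebraMap k F u) • (B.map (algebraMap k F) * B.map (algebraMap k F)) := by
    rw [ht]
    ext i j
    simp [Matrix.mul_apply, Fin.sum_univ_three]
  rw [phE_eq, phE_eq, e1]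
  set A' := A.map (algebraMap k F)
  set B' := B.map (algebraMap k F)
  have e2 : (toMQ (t • B') : MQ F a b) * scw F w * (toMQ ((-t) • B') * scw F w) =
      toMQ (-((t * t * algebraMap k F u) • (B' * B'))) := by
    calc _ = toMQ (t • B') * (scw F w * toMQ ((-t) • B')) * scw F w := by
          simp only [Matrix.mul_assoc]
      _ = toMQ (t • B') * toMQ ((-t) • B') * (scw F w * scw F w) := by
          rw [← toMQ_scw]; simp only [Matrix.mul_assoc]
      _ = _ := by
          rw [scw_scw hww, Matrix.mul_smul, Matrix.mul_one, ← toMQ_mul', ← toMQ_smul]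
          congr 1
          rw [Matrix.smul_mul, Matrix.mul_smul, smul_smul, smul_smul]
          module
  have e3 : (toMQ (t • B') : MQ F a b) * scw F w * toMQ A' +
      toMQ A' * (toMQ ((-t) • B') * scw F w) = 0 := by
    rw [Matrix.mul_assoc, ← toMQ_scw, ← Matrix.mul_assoc, ← Matrix.mul_assoc, ← Matrix.add_mul,
      ← toMQ_mul', ← toMQ_mul', ← toMQ_add, Matrix.smul_mul, Matrix.mul_smul, hAB', neg_smul,
      add_neg_cancel]
    apply Matrix.ext
    intro i j
    rw [mul_scw_apply, toMQ_apply]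
    change ((0 : F) : Qt (up F a) (up F b)) * _ = 0
    rw [QuaternionAlgebra.coe_mul_eq_smul, zero_smul]
  rw [Matrix.add_mul, Matrix.mul_add, Matrix.mul_add, e2, sub_eq_add_neg, toMQ_add,
    ← toMQ_mul', toMQ_mul' A' A']
  rw [add_assoc, ← add_assoc (toMQ A' * (toMQ ((-t) • B') * scw F w)),
    add_comm (toMQ A' * (toMQ ((-t) • B') * scw F w)), e3, zero_add]

theorem phE_map {σ : F ≃ₐ[k] F} {t : F} (w : Qt a b) (A B : Matrix (Fin 3) (Fin 3) k) :
    (phE t w A B).map (qmap σ) = phE (σ t) w A B := by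
  apply Matrix.ext
  intro i j
  change qmap σ (algebraMap F (Qt (up F a) (up F b)) (algebraMap k F (A i j)) +
    (t * algebraMap k F (B i j)) • qup F w) = _
  rw [qmap_add, qmap_smul, qmap_qup, map_mul, AlgEquiv.commutes]
  have h := H64.qmap_coe σ (a := a) (b := b) (algebraMap k F (A i j))
  rw [AlgEquiv.commutes] at h
  change qmap σ ((algebraMap k F (A i j) : F) : Qt (up F a) (up F b)) + _ = _
  rw [h]
  rfl

theorem phE_neg (t : F) (w : Qt a b) (A B : Matrix (Fin 3) (Fin 3) k) :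
    phE t w A (-B) = phE (-t) w A B := by
  apply Matrix.ext
  intro i j
  change algebraMap F (Qt (up F a) (up F b)) (algebraMap k F (A i j)) +
    (t * algebraMap k F (-B i j)) • qup F w = algebraMap F _ (algebraMap k F (A i j)) +
    (-t * algebraMap k F (B i j)) • qup F w
  rw [map_neg, mul_neg, neg_mul]

theorem exists_phU {t : F} {kap : k} (ht : t * t = algebraMap k F kap) {w : Qt a b} {u : k}
    (hww : w * w = u • (1 : Qt a b)) {A B : Matrix (Fin 3) (Fin 3) k} (hAB : A * B = B * A)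
    (hd : (A * A - (kap * u) • (B * B)).det ≠ 0) :
    ∃ m : (MQ F a b)ˣ, (m : MQ F a b) = phE t w A B := by
  obtain ⟨D, hD⟩ : ∃ D, D = A * A - (kap * u) • (B * B) := ⟨_, rfl⟩
  have h1 : phE t w A B * phE (-t) w A B = toMQ (D.map (algebraMap k F)) := by
    rw [hD]; exact phE_mul ht hww hAB
  have h2 : phE (-t) w A B * phE t w A B = toMQ (D.map (algebraMap k F)) := by
    have h := phE_mul (t := -t) (by rw [neg_mul_neg, ht]) hww hAB
    rw [neg_neg] at h
    rw [hD]; exact h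
  rw [← hD] at hd
  have hD1 : (D.map (algebraMap k F)) * (D⁻¹.map (algebraMap k F)) = 1 := by
    rw [← Matrix.map_mul, Matrix.mul_nonsing_inv _ (isUnit_iff_ne_zero.mpr hd),
      Matrix.map_one _ (map_zero _) (map_one _)]
  have hD2 : (D⁻¹.map (algebraMap k F)) * (D.map (algebraMap k F)) = 1 := by
    rw [← Matrix.map_mul, Matrix.nonsing_inv_mul _ (isUnit_iff_ne_zero.mpr hd),
      Matrix.map_one _ (map_zero _) (map_one _)]
  have e1 : (toMQ (1 : Matrix (Fin 3) (Fin 3) F) : MQ F a b) = 1 := E6I.toMQ_one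
  have h3 : phE t w A B * (phE (-t) w A B * toMQ (D⁻¹.map (algebraMap k F))) = 1 := by
    rw [← Matrix.mul_assoc, h1, ← toMQ_mul', hD1, e1]
  have h4 : (toMQ (D⁻¹.map (algebraMap k F)) * phE (-t) w A B) * phE t w A B = 1 := by
    rw [Matrix.mul_assoc, h2, ← toMQ_mul', hD2, e1]
  have h5 : phE (-t) w A B * toMQ (D⁻¹.map (algebraMap k F)) =
      toMQ (D⁻¹.map (algebraMap k F)) * phE (-t) w A B := (left_inv_eq_right_inv h4 h3).symm
  exact ⟨⟨phE t w A B, phE (-t) w A B * toMQ (D⁻¹.map (algebraMap k F)), h3, by rw [h5, h4]⟩, rfl⟩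

/-- The norm of `A + t w B`. -/
theorem nu_phE [NeZero (2 : F)] (hab : Aniso (up F a) (up F b)) {t : F} {kap : k}
    (ht : t * t = algebraMap k F kap) {w : Qt a b} {u : k} (hw : w.re = 0)
    (hww : w * w = u • (1 : Qt a b)) {p0 p1 p2 : k} {A B : Matrix (Fin 3) (Fin 3) k}
    (hA : Mp p0 p1 p2 * A = A * Mp p0 p1 p2) (hB : Mp p0 p1 p2 * B = B * Mp p0 p1 p2) :
    nu (phE t w A B : MQ F a b) = algebraMap k F (A * A - (kap * u) • (B * B)).det := by
  obtain ⟨S, hS⟩ : ∃ S, S = S0 (algebraMap k F p1) (algebraMap k F p2) := ⟨_, rfl⟩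
  have hSt : Sᵀ = S := by rw [hS]; exact S0_transpose _ _
  have hSd : S.det = -1 := by rw [hS]; exact det_S0 _ _
  have hA' := map_of_comm (E := F) hA
  have hB' := map_of_comm (E := F) hB
  have hAB : A * B = B * A := comm_comm hA.symm hB.symm
  have h1 : toMQ S * (phE t w A B : MQ F a b)ᴴ = phE (-t) w A B * toMQ S := by
    rw [phE_eq, phE_eq, Matrix.conjTranspose_add, Matrix.conjTranspose_mul, scw_conj hw,
      toMQ_conj, toMQ_conj, Matrix.mul_add, Matrix.add_mul, ← toMQ_mul', hS, comm_S0 hA',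
      toMQ_mul']
    congr 1
    rw [Matrix.neg_mul, Matrix.mul_neg, ← toMQ_scw, ← Matrix.mul_assoc, ← toMQ_mul',
      Matrix.transpose_smul, Matrix.mul_smul, comm_S0 hB', neg_smul, Matrix.mul_assoc,
      ← toMQ_scw, ← Matrix.mul_assoc, ← toMQ_mul', Matrix.neg_mul, Matrix.smul_mul]
    have e : (toMQ (-(t • (B.map (algebraMap k F) *
        S0 (algebraMap k F p1) (algebraMap k F p2)))) : MQ F a b) =
        -toMQ (t • (B.map (algebraMap k F) * S0 (algebraMap k F p1) (algebraMap k F p2))) := by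
      rw [← neg_one_smul F (t • _), toMQ_smul, neg_one_smul]
    rw [e, Matrix.neg_mul]
  obtain ⟨D, hD⟩ : ∃ D, D = A * A - (kap * u) • (B * B) := ⟨_, rfl⟩
  have hDM : D * Mp p0 p1 p2 = Mp p0 p1 p2 * D := by
    rw [hD, Matrix.sub_mul, Matrix.mul_sub, Matrix.smul_mul, Matrix.mul_smul, Matrix.mul_assoc,
      ← hA, ← Matrix.mul_assoc, ← hA, Matrix.mul_assoc, Matrix.mul_assoc B, ← hB,
      ← Matrix.mul_assoc B, ← hB, Matrix.mul_assoc (Mp p0 p1 p2)]
  have hDM' := map_of_comm (E := F) hDM.symm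
  have h2 : phE t w A B * toMQ S * (phE t w A B : MQ F a b)ᴴ =
      toMQ (D.map (algebraMap k F) * S) := by
    rw [Matrix.mul_assoc, h1, ← Matrix.mul_assoc, phE_mul ht hww hAB, hD, toMQ_mul']
  have hher : (toMQ S : MQ F a b).IsHermitian := by
    rw [Matrix.IsHermitian, toMQ_conj, hSt]
  have h3 := H64.herN_mul two_ne_zero hab (phE t w A B) (toMQ S) hher
  have h4 : ∀ T : Matrix (Fin 3) (Fin 3) F, Tᵀ = T → H64.herN (toMQ T : MQ F a b) = T.det :=
    fun T hT => E6I.Fx.herN_ofF hT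
  have h5 : (D.map (algebraMap k F) * S)ᵀ = D.map (algebraMap k F) * S := by
    rw [Matrix.transpose_mul, hSt, hS, comm_S0 hDM']
  rw [h2, h4 _ h5, h4 _ hSt, Matrix.det_mul, hSd] at h3
  have h6 : (D.map (algebraMap k F)).det = algebraMap k F D.det :=
    (RingHom.map_det (algebraMap k F) D).symm
  rw [h6] at h3
  rw [← hD]
  linear_combination h3

end ph

section KK

variable {k E : Type} [Field k] [Field E] [Algebra k E] {ρ σ : E ≃ₐ[k] E} {a b c : kˣ}

/-- The restriction of `σ` to the fixed field of `ρ`. -/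
noncomputable def sK (hσ : ∀ x, σ (σ x) = x) (hc : ∀ x, ρ (σ x) = σ (ρ x)) :
    KK ρ ≃ₐ[k] KK ρ where
  toFun x := mkK (ρ := ρ) (x := σ (algebraMap (KK ρ) E x)) (by rw [hc, KK_fix])
  invFun x := mkK (ρ := ρ) (x := σ (algebraMap (KK ρ) E x)) (by rw [hc, KK_fix])
  left_inv x := KK_ext (by
    change σ (σ (algebraMap (KK ρ) E x)) = _
    rw [hσ])
  right_inv x := KK_ext (by
    change σ (σ (algebraMap (KK ρ) E x)) = _
    rw [hσ])
  map_mul' x y := KK_ext (by
    change σ (algebraMap (KK ρ) E (x * y)) =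
      σ (algebraMap (KK ρ) E x) * σ (algebraMap (KK ρ) E y)
    rw [map_mul, map_mul])
  map_add' x y := KK_ext (by
    change σ (algebraMap (KK ρ) E (x + y)) =
      σ (algebraMap (KK ρ) E x) + σ (algebraMap (KK ρ) E y)
    rw [map_add, map_add])
  commutes' x := KK_ext (by
    change σ (algebraMap (KK ρ) E (algebraMap k (KK ρ) x)) = _
    rw [← IsScalarTower.algebraMap_apply, AlgEquiv.commutes])

theorem algebraMap_sK (hσ : ∀ x, σ (σ x) = x) (hc : ∀ x, ρ (σ x) = σ (ρ x)) (x : KK ρ) :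
    algebraMap (KK ρ) E (sK hσ hc x) = σ (algebraMap (KK ρ) E x) := rfl

/-- The extension of scalars from the fixed field of `ρ`. -/
noncomputable def aK (ρ : E ≃ₐ[k] E) {a b c : kˣ} (x : AlbL (KK ρ) a b c) : AlbL E a b c :=
  (aup E x : AlbL E (up (KK ρ) a) (up (KK ρ) b) (up (KK ρ) c))

/-- The extension of scalars from the fixed field of `ρ`, for the quaternions. -/
noncomputable def qK (ρ : E ≃ₐ[k] E) {a b : kˣ} (x : Qt (up (KK ρ) a) (up (KK ρ) b)) :
    Qt (up E a) (up E b) :=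
  (qup E x : Qt (up E (up (KK ρ) a)) (up E (up (KK ρ) b)))

theorem aK_injective : Function.Injective (aK ρ (a := a) (b := b) (c := c)) := by
  intro x y h
  exact aup_injective (K := E) (a := up (KK ρ) a) (b := up (KK ρ) b) (c := up (KK ρ) c) h

theorem amap_aK (hσ : ∀ x, σ (σ x) = x) (hc : ∀ x, ρ (σ x) = σ (ρ x))
    (x : AlbL (KK ρ) a b c) : amap σ (aK ρ x) = aK ρ (amap (sK hσ hc) x) := rfl

theorem qmap_qK (hσ : ∀ x, σ (σ x) = x) (hc : ∀ x, ρ (σ x) = σ (ρ x))
    (x : Qt (up (KK ρ) a) (up (KK ρ) b)) : qmap σ (qK ρ x) = qK ρ (qmap (sK hσ hc) x) := rfl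

/-- The extension of scalars from the fixed field of `ρ`, for the matrices. -/
noncomputable def uK (ρ : E ≃ₐ[k] E) {a b : kˣ} (m : (MQ (KK ρ) a b)ˣ) : (MQ E a b)ˣ :=
  (H369.uup E m : (Matrix (Fin 3) (Fin 3) (Qt (up E (up (KK ρ) a)) (up E (up (KK ρ) b))))ˣ)

theorem uK_val (m : (MQ (KK ρ) a b)ˣ) :
    (uK ρ m : MQ E a b) = (m : MQ (KK ρ) a b).map (qK ρ) := rfl

theorem act_aK (m : (MQ (KK ρ) a b)ˣ) (κ : Qt (up (KK ρ) a) (up (KK ρ) b))
    (x : AlbL (KK ρ) a b c) : Alb.act (uK ρ m) (qK ρ κ) (aK ρ x) = aK ρ (Alb.act m κ x) :=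
  H369.act_aup (K := E) m κ x

theorem aK_unique {M : Type} [AddCommGroup M] [Module E M] {f g : AlbL E a b c →ₗ[E] M}
    (h : ∀ x : AlbL (KK ρ) a b c, f (aK ρ x) = g (aK ρ x)) : f = g :=
  Rl.alb_unique (K := E) (a := up (KK ρ) a) (b := up (KK ρ) b) (c := up (KK ρ) c) h

end KK

end Vale.Agent.P011.E6W.H684
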