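import Vale.Agent.P011.E6W.H684.Tor

/-!
Block E6W, frames: the isomorphism of the group `GS` over one quadratic extension with the
trialitarian group over the other one.
-/

open Vale.Agent.P011.MPQ Vale.Agent.P011.D4 Vale.Agent.P011.D4.Oct Vale.Agent.P011.D4.H24
  Vale.Agent.P011.D4X Vale.Agent.P011.D4Y Vale.Agent.P011.E6 Vale.Agent.P011.D4X.H62

set_option linter.unusedSectionVars false

namespace Vale.Agent.P011.E6W.H684

section js

variable {k M O : Type} [Field k] [Field M] [Field O] [Algebra k M] [Algebra k O] [Algebra M O]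
  [IsScalarTower k M O] {a b c : kˣ} {ρ σ : M ≃ₐ[k] M} {ρ' σ' : O ≃ₐ[k] O}

theorem JS_add (S : Qt (up M a) (up M b)) (t : M) (x y : OctL M a b c) :
    JS ρ σ S t (x + y) = JS ρ σ S t x + JS ρ σ S t y := by
  rw [JS, D4Y.H62.omap_addO, zFun_add]
  rfl

theorem JS_smul (S : Qt (up M a) (up M b)) (t r : M) (x : OctL M a b c) :
    JS ρ σ S t (r • x) = σ r • JS ρ σ S t x := by
  rw [JS, D4Y.H62.omap_smulO, zFun_smul]
  rfl

theorem JS_zero (S : Qt (up M a) (up M b)) (t : M) : JS ρ σ S t (0 : OctL M a b c) = 0 := by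
  have h := JS_smul (ρ := ρ) (σ := σ) S t 0 (0 : OctL M a b c)
  rwa [zero_smul, map_zero, zero_smul] at h

theorem qin_one' : qin O (1 : Qt (up M a) (up M b)) = 1 := by
  apply QuaternionAlgebra.ext
  · exact map_one (algebraMap M O)
  · exact map_zero (algebraMap M O)
  · exact map_zero (algebraMap M O)
  · exact map_zero (algebraMap M O)

theorem zFun_oin' (hρ : ∀ t : M, ρ' (algebraMap M O t) = algebraMap M O (ρ t))
    (X w : Qt (up M a) (up M b)) (t : M) (x : OctL M a b c) :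
    zFun ρ' (qin O X) (qin O w) (algebraMap M O t) (oin O x) = oin O (zFun ρ X w t x) := by
  ext1
  · rw [fst_zFun, oin_fst, oin_fst, fst_zFun, qmap_qin hρ, qmap_qin hρ, ← qin_star, ← qin_mul,
      ← qin_mul]
  · rw [snd_zFun, oin_snd, oin_snd, snd_zFun, qmap_qin hρ, ← qin_star, ← qin_mul,
      ← qin_mul, ← qin_smul]

theorem JS_oin (hρ : ∀ t : M, ρ' (algebraMap M O t) = algebraMap M O (ρ t))
    (hσ : ∀ t : M, σ' (algebraMap M O t) = algebraMap M O (σ t))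
    (S : Qt (up M a) (up M b)) (t : M) (x : OctL M a b c) :
    JS ρ' σ' (qin O S) (algebraMap M O t) (oin O x) = oin O (JS ρ σ S t x) := by
  rw [JS, omap_oin' hσ, ← qin_one' (M := M), zFun_oin' hρ]
  rfl

/-- The extension commutes with the extension of `JS`. -/
theorem IsBc_JS {y : OctL M a b c ≃ₗ[M] OctL M a b c} {Y : OctL O a b c ≃ₗ[O] OctL O a b c}
    (h : IsBc O y Y) (hρ : ∀ t : M, ρ' (algebraMap M O t) = algebraMap M O (ρ t))
    (hσ : ∀ t : M, σ' (algebraMap M O t) = algebraMap M O (σ t))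
    {S : Qt (up M a) (up M b)} {t : M}
    (hy : ∀ x, y (JS ρ σ S t x) = JS ρ σ S t (y x)) (x : OctL O a b c) :
    Y (JS ρ' σ' (qin O S) (algebraMap M O t) x) =
      JS ρ' σ' (qin O S) (algebraMap M O t) (Y x) := by
  refine ext_oin (F := M)
    (f := fun x => Y (JS ρ' σ' (qin O S) (algebraMap M O t) x))
    (g := fun x => JS ρ' σ' (qin O S) (algebraMap M O t) (Y x))
    (fun x y => ?_) (fun x y => ?_) ?_ ?_ (fun t x => ?_) x
  · rw [JS_add, map_add]
  · rw [map_add, JS_add]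
  · change Y _ = 0
    rw [JS_zero, map_zero]
  · change JS _ _ _ _ (Y 0) = 0
    rw [map_zero, JS_zero]
  · rw [JS_smul, map_smul, map_smul, JS_smul, JS_oin hρ hσ, h, h, JS_oin hρ hσ, hy]

end js

section main

variable {k L M E1 O : Type} [Field k] [Field L] [Field M] [Field E1] [Field O] [Algebra k L]
  [Algebra k M] [Algebra L M] [Algebra k E1] [Algebra L E1] [Algebra k O] [Algebra L O]
  [Algebra M O] [Algebra E1 O] [IsScalarTower k L M] [IsScalarTower k L E1]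
  [IsScalarTower k M O] [IsScalarTower k E1 O] [IsScalarTower L M O] [IsScalarTower L E1 O]
  {a b c : kˣ}

/-- The data of the exchange of the two quadratic extensions. -/
structure KG (ρ σ ι : M ≃ₐ[k] M) (ρ1 σ1 ι1 : E1 ≃ₐ[k] E1) (ρ' σ' τ' ι' : O ≃ₐ[k] O) (α1 : E1)
    (q : Lˣ) (S : Qt (up M a) (up M b)) (t : M)
    (u : OctL O a b c ≃ₗ[O] OctL O a b c) : Prop where
  hρ : ∀ t : M, ρ' (algebraMap M O t) = algebraMap M O (ρ t)
  hσ : ∀ t : M, σ' (algebraMap M O t) = algebraMap M O (σ t)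
  hτ : ∀ t : M, τ' (algebraMap M O t) = algebraMap M O t
  hι : ∀ t : M, ι' (algebraMap M O t) = algebraMap M O (ι t)
  fτ : ∀ x, τ' x = x → ∃ t : M, algebraMap M O t = x
  hρ1 : ∀ t : E1, ρ' (algebraMap E1 O t) = algebraMap E1 O (ρ1 t)
  hσ1 : ∀ t : E1, σ' (algebraMap E1 O t) = algebraMap E1 O t
  hτ1 : ∀ t : E1, τ' (algebraMap E1 O t) = algebraMap E1 O (σ1 t)
  hι1 : ∀ t : E1, ι' (algebraMap E1 O t) = algebraMap E1 O (ι1 t)
  fσ : ∀ x, σ' x = x → ∃ t : E1, algebraMap E1 O t = x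
  hu : ∃ e : O, e ≠ 0 ∧ ∀ x y, tri ρ' (u x) (u y) = e • u (tri ρ' x y)
  hJ : ∃ s : O, s ≠ 0 ∧ ∀ x, JS ρ' σ' (qin O S) (algebraMap M O t) (u x) = s • u (omap σ' x)
  hJ1 : ∃ t : O, t ≠ 0 ∧ ∀ x, omap τ' (u x) = t • u (Jq τ' (algebraMap E1 O α1)
    (algebraMap L O q) (ρ' (algebraMap L O q)) x)
  hI : ∃ s : O, s ≠ 0 ∧ ∀ x, Im ι' (u x) = s • u (Im ι' x)

variable {ρ σ ι : M ≃ₐ[k] M} {ρ1 σ1 ι1 : E1 ≃ₐ[k] E1} {ρ' σ' τ' ι' : O ≃ₐ[k] O} {α1 : E1}
  {q : Lˣ} {S : Qt (up M a) (up M b)} {t : M} {u : OctL O a b c ≃ₗ[O] OctL O a b c}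

theorem im_eq (ι : M ≃ₐ[k] M) (x : OctL M a b c) : Im ι x = omap ι (star x) := rfl

/-- From `GS` to the trialitarian group. -/
theorem KG.exists_y (h : KG ρ σ ι ρ1 σ1 ι1 ρ' σ' τ' ι' α1 q S t u)
    {z : OctL M a b c ≃ₗ[M] OctL M a b c} (hz : z ∈ GS ρ σ ι c S t) :
    ∃ y ∈ GTI ρ1 σ1 ι1 α1 a b c q, Rel u z y := by
  obtain ⟨z1, z2, z3⟩ := hz
  obtain ⟨Z, hZ⟩ := exists_bc (O := O) z
  obtain ⟨s, hs, hJ⟩ := h.hJ
  have hZJ := IsBc_JS hZ h.hρ h.hσ z2
  have hY : ∀ x, u (((u.trans Z).trans u.symm) x) = Z (u x) := fun x =>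
    LinearEquiv.apply_symm_apply u _
  obtain ⟨y, hy⟩ := exists_desc h.hσ1 h.fσ (Y := (u.trans Z).trans u.symm) (fun x => by
    apply u.injective
    apply smul_right_injective _ hs
    change s • u _ = s • u _
    rw [← hJ, hY, hY, ← hZJ, hJ, map_smul])
  set Y := (u.trans Z).trans u.symm with hYd
  refine ⟨y, ⟨?_, ?_, ?_⟩, Z, Y, hZ, hy, hY⟩
  · obtain ⟨e, he, hu⟩ := h.hu
    have hZt := hZ.tri h.hρ (κ := 1) (fun x x' => by rw [one_smul]; exact z1 x x')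
    have hYt : ∀ x x', Y (tri ρ' x x') = tri ρ' (Y x) (Y x') := by
      intro x x'
      apply u.injective
      apply smul_right_injective _ he
      change e • u _ = e • u _
      rw [← hu, hY, hY, hY, ← map_smul, ← hu, hZt, map_one, one_smul]
    intro x x'
    apply oin_inj (O := O)
    rw [← hy, ← tri_oin h.hρ1, hYt, hy, hy, tri_oin h.hρ1]
  · obtain ⟨t, ht, hJ1⟩ := h.hJ1
    have hq : algebraMap L O q = algebraMap E1 O (algebraMap L E1 q) :=
      IsScalarTower.algebraMap_apply L E1 O _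
    rw [hq, h.hρ1] at hJ1
    have hYJ : ∀ x, Y (Jq τ' (algebraMap E1 O α1) (algebraMap E1 O (algebraMap L E1 q))
        (algebraMap E1 O (ρ1 (algebraMap L E1 q))) x) =
        Jq τ' (algebraMap E1 O α1) (algebraMap E1 O (algebraMap L E1 q))
        (algebraMap E1 O (ρ1 (algebraMap L E1 q))) (Y x) := by
      intro x
      apply u.injective
      apply smul_right_injective _ ht
      change t • u _ = t • u _
      rw [← hJ1, hY, hY, ← map_smul Z, ← hJ1, hZ.comm h.hτ]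
    intro x
    apply oin_inj (O := O)
    change oin O (y (Jq σ1 α1 (algebraMap L E1 q) (ρ1 (algebraMap L E1 q)) x)) =
      oin O (Jq σ1 α1 (algebraMap L E1 q) (ρ1 (algebraMap L E1 q)) (y x))
    rw [← Jq_oin h.hτ1, ← hy, ← hy, ← Jq_oin h.hτ1, hYJ]
  · obtain ⟨s, hs, hI⟩ := h.hI
    have hZI := D4Y.H62.IsBc.im hZ h.hι z3
    have hYI : ∀ x, Y (Im ι' x) = Im ι' (Y x) := by
      intro x
      apply u.injective
      apply smul_right_injective _ hs
      change s • u _ = s • u _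
      rw [← hI, hY, hY, ← map_smul Z, ← hI]
      exact hZI _
    intro x
    apply oin_inj (O := O)
    rw [im_eq, im_eq, ← hy, ← omap_oin' h.hι1, oin_star, ← im_eq, hYI, hy, im_eq, ← oin_star,
      omap_oin' h.hι1]

/-- From the trialitarian group to `GS`. -/
theorem KG.exists_z (h : KG ρ σ ι ρ1 σ1 ι1 ρ' σ' τ' ι' α1 q S t u)
    {y : OctL E1 a b c ≃ₗ[E1] OctL E1 a b c} (hy : y ∈ GTI ρ1 σ1 ι1 α1 a b c q) :
    ∃ z ∈ GS ρ σ ι c S t, Rel u z y := by
  obtain ⟨y1, y2, y3⟩ := hy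
  obtain ⟨Y, hY⟩ := exists_bc (O := O) y
  obtain ⟨r, hr, hJ1⟩ := h.hJ1
  have hq : algebraMap L O q = algebraMap E1 O (algebraMap L E1 q) :=
    IsScalarTower.algebraMap_apply L E1 O _
  have hYJ := hY.Jq h.hτ1 (q := algebraMap L E1 q) (q' := ρ1 (algebraMap L E1 q)) y2
  rw [← h.hρ1, ← hq] at hYJ
  have hZ : ∀ x, ((u.symm.trans Y).trans u) (u x) = u (Y x) := fun x => by
    change u (Y (u.symm (u x))) = _
    rw [LinearEquiv.symm_apply_apply]
  obtain ⟨z, hz⟩ := exists_desc h.hτ h.fτ (Y := (u.symm.trans Y).trans u) (fun x => by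
    obtain ⟨x, rfl⟩ := u.surjective x
    rw [hZ, hJ1, hJ1, map_smul, hZ, hYJ])
  set Z := (u.symm.trans Y).trans u with hZd
  refine ⟨z, ⟨?_, ?_, ?_⟩, Z, Y, hz, hY, fun x => (hZ x).symm⟩
  · obtain ⟨e, he, hu⟩ := h.hu
    have hYt := hY.tri h.hρ1 (κ := 1) (fun x x' => by rw [one_smul]; exact y1 x x')
    have hZt : ∀ x x', Z (tri ρ' x x') = tri ρ' (Z x) (Z x') := by
      intro x x'
      obtain ⟨x, rfl⟩ := u.surjective x
      obtain ⟨x', rfl⟩ := u.surjective x'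
      rw [hu, map_smul, hZ, hZ, hZ, hu, hYt, map_one, one_smul]
    intro x x'
    apply oin_inj (O := O)
    rw [← hz, ← tri_oin h.hρ, hZt, hz, hz, tri_oin h.hρ]
  · obtain ⟨s, hs, hJ⟩ := h.hJ
    have hZJ : ∀ x, Z (JS ρ' σ' (qin O S) (algebraMap M O t) x) =
        JS ρ' σ' (qin O S) (algebraMap M O t) (Z x) := by
      intro x
      obtain ⟨x, rfl⟩ := u.surjective x
      rw [hJ, map_smul, hZ, hZ, hJ, ← hY.comm h.hσ1]
    intro x
    apply oin_inj (O := O)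
    rw [← hz, ← JS_oin h.hρ h.hσ, hZJ, hz, JS_oin h.hρ h.hσ]
  · obtain ⟨s, hs, hI⟩ := h.hI
    have hYI := D4Y.H62.IsBc.im hY h.hι1 y3
    have hZI : ∀ x, Z (Im ι' x) = Im ι' (Z x) := by
      intro x
      obtain ⟨x, rfl⟩ := u.surjective x
      rw [hI, map_smul, hZ, hZ, hI]
      congr 2
      exact hYI _
    intro x
    apply oin_inj (O := O)
    rw [im_eq, im_eq, ← hz, ← omap_oin' h.hι, oin_star, ← im_eq, hZI, hz, im_eq, ← oin_star,
      omap_oin' h.hι]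

/-- The groups have no proper subgroups of finite index at the same time. -/
theorem KG.top (h : KG ρ σ ι ρ1 σ1 ι1 ρ' σ' τ' ι' α1 q S t u)
    (htop : ∀ N : Subgroup (GTI ρ1 σ1 ι1 α1 a b c q), N.index ≠ 0 → N = ⊤)
    (N : Subgroup (GS ρ σ ι c S t)) (hN : N.index ≠ 0) : N = ⊤ := by
  choose g hg hg' using fun y : GTI ρ1 σ1 ι1 α1 a b c q => h.exists_z y.2
  have huniq : ∀ {y : OctL E1 a b c ≃ₗ[E1] OctL E1 a b c}
      {z z' : OctL M a b c ≃ₗ[M] OctL M a b c}, Rel u z y → Rel u z' y → z = z' :=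
    fun h1 h2 => h1.symm.unique h2.symm
  let Λ : GTI ρ1 σ1 ι1 α1 a b c q →* GS ρ σ ι c S t :=
    MonoidHom.mk' (fun y => ⟨g y, hg y⟩) (fun y y' => Subtype.ext
      (huniq (hg' (y * y')) ((hg' y).mul (hg' y'))))
  have hΛ : Function.Surjective Λ := fun z => by
    obtain ⟨y, hy, h1⟩ := h.exists_y z.2
    exact ⟨⟨y, hy⟩, Subtype.ext (huniq (hg' ⟨y, hy⟩) h1)⟩
  have h1 : N.comap Λ = ⊤ := htop _ (by
    rw [Subgroup.index_comap_of_surjective _ hΛ]
    exact hN)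
  rw [eq_top_iff]
  intro z _
  obtain ⟨y, rfl⟩ := hΛ z
  have h2 : y ∈ N.comap Λ := h1 ▸ Subgroup.mem_top y
  exact h2

end main

end Vale.Agent.P011.E6W.H684
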