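import Vale.Agent.P011.D4Y.H553.Tow
import Vale.Agent.P011.E6W.H684.Gs

/-!
Block E6W, frames: the tower of fields.
-/

open NumberField

namespace Vale.Agent.P011.E6W.H684

open Vale.Agent.P011.MPQ Vale.Agent.P011.D4 Vale.Agent.P011.D4.Oct Vale.Agent.P011.E6
open Vale.Agent.P011.D4X Vale.Agent.P011.D4Y

/-- The extension `M / k`, `M` the compositum of the Galois closure of the noncyclic cubic field
`L` and of a quadratic extension. -/
structure MH {k L M : Type} [Field k] [Field L] [Field M] [Algebra k L] [Algebra k M]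
    [Algebra L M] (ρ σ ι : M ≃ₐ[k] M) : Prop where
  h3 : Module.finrank k L = 3
  ρL : ∃ t : L, ρ (algebraMap L M t) ≠ algebraMap L M t
  ρ3 : ∀ x, ρ (ρ (ρ x)) = x
  σ2 : ∀ x, σ (σ x) = x
  ι2 : ∀ x, ι (ι x) = x
  comm : ∀ x, σ (ρ x) = ρ (σ x)
  σι : ∀ x, σ (ι x) = ι (σ x)
  ιρ : ∀ x, ι (ρ x) = ρ (ρ (ι x))
  σL : ∀ t : L, σ (algebraMap L M t) = algebraMap L M t
  ιL : ∀ t : L, ι (algebraMap L M t) = ρ (ρ (algebraMap L M t))
  fixL : ∀ x : M, σ x = x → ι x = ρ (ρ x) → ∃ t : L, algebraMap L M t = x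
  fixk : ∀ x : M, ρ x = x → σ x = x → ι x = x → ∃ t : k, algebraMap k M t = x

section main

variable {k L E : Type} [Field k] [Field L] [Field E] [Algebra k L] [Algebra k E] [Algebra L E]
  [IsScalarTower k L E] [NeZero (2 : E)] {ρ σ ι : E ≃ₐ[k] E}
  (H : MH (L := L) ρ σ ι)

include H

/-- The tower exists if `D` is not a square in `E`. -/
theorem exists_tow [NumberField L] [NumberField E] {D : k}
    (hD : ∀ x : E, x * x ≠ algebraMap k E D) :
    ∃ (E1 O : Type) (_ : Field E1) (_ : Field O) (_ : Algebra k E1) (_ : Algebra L E1)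
      (_ : Algebra k O) (_ : Algebra L O) (_ : Algebra E O) (_ : Algebra E1 O)
      (_ : IsScalarTower k L E1) (_ : IsScalarTower k E O) (_ : IsScalarTower k E1 O)
      (_ : IsScalarTower L E O) (_ : IsScalarTower L E1 O) (_ : IsScalarTower k L O)
      (_ : NumberField E1) (_ : NumberField O) (ρ1 σ1 ι1 : E1 ≃ₐ[k] E1) (α1 : E1)
      (ρ' σ' τ' ι' : O ≃ₐ[k] O), TowI (L := L) ρ σ ι D ρ1 σ1 ι1 α1 ρ' σ' τ' ι' := by
  have f2 : Fact (∀ r : E, r ^ 2 ≠ algebraMap k E D + 0 * r) := ⟨fun r h => hD r (by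
    linear_combination h)⟩
  let O := QuadraticAlgebra E (algebraMap k E D) 0
  have n2 : NumberField O := NumberField.of_module_finite E O
  let ρ' : O ≃ₐ[k] O := qaEquiv ρ D
  let σ' : O ≃ₐ[k] O := qaEquiv σ D
  let ι' : O ≃ₐ[k] O := qaEquiv ι D
  let τ' : O ≃ₐ[k] O := qaConj k D
  have ρ3 : ∀ x, ρ' (ρ' (ρ' x)) = x := fun x => QuadraticAlgebra.ext (H.ρ3 _) (H.ρ3 _)
  have σ2 : ∀ x, σ' (σ' x) = x := fun x => QuadraticAlgebra.ext (H.σ2 _) (H.σ2 _)
  have ι2 : ∀ x, ι' (ι' x) = x := fun x => QuadraticAlgebra.ext (H.ι2 _) (H.ι2 _)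
  have τ2 : ∀ x, τ' (τ' x) = x := fun x => QuadraticAlgebra.ext rfl (neg_neg _)
  have σρ : ∀ x, σ' (ρ' x) = ρ' (σ' x) := fun x => QuadraticAlgebra.ext (H.comm _) (H.comm _)
  have σι : ∀ x, σ' (ι' x) = ι' (σ' x) := fun x => QuadraticAlgebra.ext (H.σι _) (H.σι _)
  have ιρ : ∀ x, ι' (ρ' x) = ρ' (ρ' (ι' x)) := fun x => QuadraticAlgebra.ext (H.ιρ _) (H.ιρ _)
  have τρ : ∀ x, τ' (ρ' x) = ρ' (τ' x) := fun x => QuadraticAlgebra.ext rfl (map_neg ρ _).symm
  have στ : ∀ x, σ' (τ' x) = τ' (σ' x) := fun x => QuadraticAlgebra.ext rfl (map_neg σ _)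
  have ιτ : ∀ x, ι' (τ' x) = τ' (ι' x) := fun x => QuadraticAlgebra.ext rfl (map_neg ι _)
  have ρE : ∀ x : E, ρ' (algebraMap E O x) = algebraMap E O (ρ x) := fun x =>
    QuadraticAlgebra.ext rfl (map_zero ρ)
  have σE : ∀ x : E, σ' (algebraMap E O x) = algebraMap E O (σ x) := fun x =>
    QuadraticAlgebra.ext rfl (map_zero σ)
  have ιE : ∀ x : E, ι' (algebraMap E O x) = algebraMap E O (ι x) := fun x =>
    QuadraticAlgebra.ext rfl (map_zero ι)
  have τE : ∀ x : E, τ' (algebraMap E O x) = algebraMap E O x := fun x =>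
    QuadraticAlgebra.ext rfl neg_zero
  have hLO : ∀ t : L, algebraMap L O t = algebraMap E O (algebraMap L E t) := fun t =>
    IsScalarTower.algebraMap_apply L E O t
  have hσL : ∀ t : L, σ' (algebraMap L O t) = algebraMap L O t := fun t => by
    rw [hLO, σE, H.σL]
  have fixτ : ∀ x : O, τ' x = x → ∃ y : E, algebraMap E O y = x := by
    intro x hx
    have h1 : -x.im = x.im := congrArg QuadraticAlgebra.im hx
    have h2 : (2 : E) ≠ 0 := NeZero.ne 2
    have h3 : x.im = 0 := by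
      have h : (2 : E) * x.im = 0 := by linear_combination -h1
      rcases mul_eq_zero.mp h with h | h
      · exact absurd h h2
      · exact h
    exact ⟨x.re, QuadraticAlgebra.ext rfl h3.symm⟩
  have hEO : Function.Injective (algebraMap E O) := (algebraMap E O).injective
  have fL : FiniteDimensional L E := Module.Finite.of_restrictScalars_finite ℚ L E
  have fLO : FiniteDimensional L O := FiniteDimensional.trans L E O
  let E1 : IntermediateField L O := fixF σ' hσL
  have n1 : NumberField E1 := NumberField.of_module_finite L E1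
  have t1 : IsScalarTower k E1 O := IsScalarTower.of_algebraMap_eq fun _ => rfl
  have hα : (⟨0, 1⟩ : O) ∈ E1 := QuadraticAlgebra.ext (map_zero σ) (map_one σ)
  refine ⟨E1, O, inferInstance, inferInstance, inferInstance, inferInstance, inferInstance,
    inferInstance, inferInstance, inferInstance, inferInstance, inferInstance, t1,
    inferInstance, inferInstance, inferInstance, n1, n2, resF σ' hσL ρ' σρ, resF σ' hσL τ' στ,
    resF σ' hσL ι' σι, ⟨⟨0, 1⟩, hα⟩, ρ', σ', τ', ι', ?_⟩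
  have hαα : (⟨0, 1⟩ : O) * ⟨0, 1⟩ = algebraMap k O D := by
    refine QuadraticAlgebra.ext ?_ ?_
    · change (0 : E) * 0 + algebraMap k E D * 1 * 1 = algebraMap k E D
      ring
    · change (0 : E) * 1 + 1 * 0 + 0 * 1 * 1 = 0
      ring
  exact
    { ρ1L := by
        obtain ⟨t, ht⟩ := H.ρL
        refine ⟨t, fun h => ht ?_⟩
        have h1 : ρ' (algebraMap L O t) = algebraMap L O t := congrArg Subtype.val h
        rw [hLO, ρE] at h1
        exact hEO h1
      ρ13 := fun x => Subtype.ext (ρ3 x.1)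
      σ12 := fun x => Subtype.ext (τ2 x.1)
      ι12 := fun x => Subtype.ext (ι2 x.1)
      comm1 := fun x => Subtype.ext (τρ x.1)
      σι1 := fun x => Subtype.ext (ιτ x.1).symm
      ιρ1 := fun x => Subtype.ext (ιρ x.1)
      σ1L := fun t => Subtype.ext (by
        change τ' (algebraMap L O t) = algebraMap L O t
        rw [hLO, τE])
      ι1L := fun t => Subtype.ext (by
        change ι' (algebraMap L O t) = ρ' (ρ' (algebraMap L O t))
        rw [hLO, ιE, ρE, ρE, H.ιL])
      fixL1 := fun x h1 h2 => by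
        have h1' : τ' x.1 = x.1 := congrArg Subtype.val h1
        have h2' : ι' x.1 = ρ' (ρ' x.1) := congrArg Subtype.val h2
        have h3' : σ' x.1 = x.1 := x.2
        obtain ⟨y, hy⟩ := fixτ x.1 h1'
        rw [← hy, σE] at h3'
        rw [← hy, ιE, ρE, ρE] at h2'
        obtain ⟨t, ht⟩ := H.fixL y (hEO h3') (hEO h2')
        exact ⟨t, Subtype.ext (by
          change algebraMap L O t = x.1
          rw [hLO, ht, hy])⟩
      fixk1 := fun x h0 h1 h2 => by
        have h0' : ρ' x.1 = x.1 := congrArg Subtype.val h0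
        have h1' : τ' x.1 = x.1 := congrArg Subtype.val h1
        have h2' : ι' x.1 = x.1 := congrArg Subtype.val h2
        have h3' : σ' x.1 = x.1 := x.2
        obtain ⟨y, hy⟩ := fixτ x.1 h1'
        rw [← hy, σE] at h3'
        rw [← hy, ιE] at h2'
        rw [← hy, ρE] at h0'
        obtain ⟨t, ht⟩ := H.fixk y (hEO h0') (hEO h3') (hEO h2')
        exact ⟨t, Subtype.ext (by
          change algebraMap k O t = x.1
          rw [IsScalarTower.algebraMap_apply k E O, ht, hy])⟩
      α12 := Subtype.ext hαα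
      ρα1 := Subtype.ext (QuadraticAlgebra.ext (map_zero ρ) (map_one ρ))
      σα1 := Subtype.ext (QuadraticAlgebra.ext neg_zero.symm rfl)
      ια1 := Subtype.ext (QuadraticAlgebra.ext (map_zero ι) (map_one ι))
      ρ3 := ρ3
      σ2 := σ2
      τ2 := τ2
      ι2 := ι2
      σρ := σρ
      τρ := τρ
      στ := στ
      ιρ := ιρ
      ισ := fun x => (σι x).symm
      ιτ := ιτ
      ρE := ρE
      σE := σE
      τE := τE
      ιE := ιE
      ρE1 := fun _ => rfl
      σE1 := fun x => x.2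
      τE1 := fun _ => rfl
      ιE1 := fun _ => rfl
      fixτ := fixτ
      fixσ := fun x hx => ⟨⟨x, hx⟩, rfl⟩
      hfix := fun x h0 h1 h2 h3 => by
        obtain ⟨y, rfl⟩ := fixτ x h2
        rw [ρE] at h0
        rw [σE] at h1
        rw [ιE] at h3
        obtain ⟨t, ht⟩ := H.fixk y (hEO h0) (hEO h1) (hEO h3)
        exact ⟨t, by rw [IsScalarTower.algebraMap_apply k E O, ht]⟩ }

end main

end Vale.Agent.P011.E6W.H684
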