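import Vale.Agent.P011.E6W.Defs
import Vale.Agent.P011.E6W.H196.ExM
import Vale.Agent.P011.E6I.FxPsi

/-!
Block E6W (B1): the statements of the pieces.
-/

open NumberField Matrix Polynomial

namespace Vale.Agent.P011.E6W.H684

open Vale.Agent.P011.MPQ hiding mat
open Vale.Agent.P011.D4 Vale.Agent.P011.D4.Oct Vale.Agent.P011.E6
open Vale.Agent.P011.E6I (MQ toMQ Mp S0 S1 S2 FixK InVs)
open Vale.Agent.P011.E6O (InD GO)
open Vale.Agent.P011.E6W.H183 (adjM)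
open Vale.Agent.P011.E6W.H196 (dsc3)
open scoped ComplexConjugate

/-- The group over the quadratic extension. -/
def GKJ {k K : Type} [Field k] [Field K] [Algebra k K] (s : K ≃ₐ[k] K) (p0 p1 p2 : k) {a b : kˣ}
    (c : kˣ) (m : (MQ K a b)ˣ) (κ : Qt (up K a) (up K b)) :
    Subgroup (AlbL K a b c ≃ₗ[K] AlbL K a b c) where
  carrier := {g | g ∈ FixK (algebraMap k K p0) (algebraMap k K p1) (algebraMap k K p2) (up K a)
    (up K b) (up K c) ∧ ∀ X, g (Alb.act m κ (amap s X)) = Alb.act m κ (amap s (g X))}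
  mul_mem' := by
    rintro g h ⟨h1, h2⟩ ⟨h3, h4⟩
    refine ⟨mul_mem h1 h3, fun X => ?_⟩
    rw [LinearEquiv.mul_apply, LinearEquiv.mul_apply, h4, h2]
  one_mem' := ⟨one_mem _, fun _ => rfl⟩
  inv_mem' := by
    rintro g ⟨h1, h2⟩
    have h : ∀ z, g (g⁻¹ z) = z := fun z => by
      rw [← LinearEquiv.mul_apply, mul_inv_cancel]; rfl
    refine ⟨inv_mem h1, fun X => ?_⟩
    apply g.injective
    rw [h, h2, h]

/-- **(P1'), the statement over the quadratic extension `K`.** The element is `φ = A + th w B`,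
the second component is the element `ε σ(κ₁)* κ₁`. -/
def KTop (k K : Type) [Field k] [NumberField k] [Field K] [NumberField K] [Algebra k K] : Prop :=
  ∀ (s : K ≃ₐ[k] K) (th : K) (kap : k) (a b c u : kˣ) (w : Qt a b) (p0 p1 p2 : k)
    (A B : Matrix (Fin 3) (Fin 3) k) (ε : k) (κ₁ : Qt (up K a) (up K b)) (m : (MQ K a b)ˣ),
    Module.finrank k K = 2 → th * th = algebraMap k K kap → s th = -th →
    Irreducible (X ^ 3 + C p2 * X ^ 2 + C p1 * X + C p0 : k[X]) →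
    ¬ IsSquare (dsc3 p0 p1 p2) → ¬ IsSquare (dsc3 p0 p1 p2 * kap) →
    ¬ IsSquare (u : k) → ¬ IsSquare (u * kap) → ¬ IsSquare (u * dsc3 p0 p1 p2) →
    ¬ IsSquare (u * kap * dsc3 p0 p1 p2) →
    w.re = 0 → w * w = (u : k) • (1 : Qt a b) →
    Division a b c → (∀ τ : k →+* ℝ, τ u < 0 ↔ τ a < 0 ∧ τ b < 0) →
    (∀ τ : k →+* ℝ, τ a < 0 → τ b < 0 → τ c < 0) →
    (∃ τ : k →+* ℝ, τ u < 0 ∧ 0 < τ kap) →
    Mp p0 p1 p2 * A = A * Mp p0 p1 p2 → Mp p0 p1 p2 * B = B * Mp p0 p1 p2 →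
    (∀ i j, (m : MQ K a b) i j = algebraMap K (Qt (up K a) (up K b)) (algebraMap k K (A i j)) +
      (th * algebraMap k K (B i j)) • qup K w) →
    ε ≠ 0 → nrd κ₁ ≠ 0 →
    algebraMap k K (A * A - (kap * u) • (B * B)).det =
      algebraMap k K (ε ^ 2) * (nrd κ₁ * s (nrd κ₁)) →
    (∀ τ : k →+* ℝ, τ kap < 0 → τ u < 0 →
      0 < τ (ε * (A.det + kap * u * (A * B.adjugate).trace))) →
    ∀ N : Subgroup (GKJ s p0 p1 p2 c m (algebraMap k K ε • (star (qmap s κ₁) * κ₁))),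
      N.index ≠ 0 → N = ⊤

/-- **(B5), the sign.** For a real place of `k` which does not split in `K`, where the quaternion
algebra is definite and the norm of `φ` is positive at all the real roots. -/
def SgnE (k E : Type) [Field k] [NumberField k] [Field E] [NumberField E] [Algebra k E] : Prop :=
  ∀ (σ : E ≃ₐ[k] E) (g : Fin 3 → Eˣ) (th : E) (kap : k) (a b u : kˣ) (w : Qt a b) (p0 p1 p2 : k)
    (A B : Matrix (Fin 3) (Fin 3) k) (P : (MQ E a b)ˣ) (r : Matrix (Fin 3) (Fin 3) E)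
    (τ : k →+* ℝ) (e : E →+* ℂ),
    (∀ x, σ (σ x) = x) → (∀ i, σ (g i) = g i) → th * th = algebraMap k E kap → σ th = -th →
    dsc3 p0 p1 p2 ≠ 0 →
    w.re = 0 → w * w = (u : k) • (1 : Qt a b) →
    Mp p0 p1 p2 * A = A * Mp p0 p1 p2 → Mp p0 p1 p2 * B = B * Mp p0 p1 p2 →
    r * (Mp p0 p1 p2).map (algebraMap k E) = (Mp p0 p1 p2).map (algebraMap k E) * r →
    r.map σ = r → r.det ≠ 0 →
    (toMQ ((S0 p1 p2).map (algebraMap k E)) : MQ E a b) *
      (((P : MQ E a b).map (qmap σ))ᴴ * dg (up E a) (up E b) g * (P : MQ E a b)) =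
      toMQ r * (Matrix.of fun i j => algebraMap E (Qt (up E a) (up E b)) (algebraMap k E (A i j)) +
        (th * algebraMap k E (B i j)) • qup E w) →
    (∀ x, e (σ x) = conj (e x)) → (∀ x : k, e (algebraMap k E x) = (τ x : ℂ)) →
    τ a < 0 → τ b < 0 →
    (∀ x : ℝ, x ^ 3 + τ p2 * x ^ 2 + τ p1 * x + τ p0 = 0 →
      0 < (τ (A 0 0) + τ (A 1 0) * x + τ (A 2 0) * x ^ 2) ^ 2 -
        τ (kap * u) * (τ (B 0 0) + τ (B 1 0) * x + τ (B 2 0) * x ^ 2) ^ 2) →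
    (e ((g 0 : E) * g 1 * g 2 * r.det *
      algebraMap k E (A.det + kap * u * (A * B.adjugate).trace))).re < 0

variable {k E : Type} [Field k] [Field E] [Algebra k E]

/-- The certificate: the quaternion algebra `(A, B)` of the frame over the cubic field. -/
structure Cert2 (ρ σ : E ≃ₐ[k] E) (lam : Eˣ) (g : Fin 3 → Eˣ) {a b c : kˣ} (kap : k)
    (z i₁ j₁ : MQ E a b) (v : AlbL E a b c) (p₂ p₁ p₀ : k) (A B : Fin 3 → k) : Prop
    extends Frame ρ σ lam g z v p₂ p₁ p₀ where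
  /-- the elements `1`, `z`, `z²` are independent -/
  ind : ∀ t₀ t₁ t₂ : E, t₀ • (1 : MQ E a b) + t₁ • z + t₂ • z ^ 2 = 0 → t₀ = 0 ∧ t₁ = 0 ∧ t₂ = 0
  /-- the discriminant is not a square in `k` -/
  dsc : ¬ IsSquare (dsc p₂ p₁ p₀)
  /-- the discriminant is not a square in `K` -/
  dsc' : ¬ IsSquare (E6W.dsc p₂ p₁ p₀ * kap)
  /-- `i₁` belongs to `D ⊗ Q` -/
  inDi : InD ρ lam i₁
  /-- `j₁` belongs to `D ⊗ Q` -/
  inDj : InD ρ lam j₁
  /-- `i₁` commutes with `z` -/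
  comi : i₁ * z = z * i₁
  /-- `j₁` commutes with `z` -/
  comj : j₁ * z = z * j₁
  /-- `i₁` is antisymmetric -/
  antii : adjM σ g i₁ = -i₁
  /-- `j₁` is antisymmetric -/
  antij : adjM σ g j₁ = -j₁
  /-- `i₁` and `j₁` anticommute -/
  anti : i₁ * j₁ = -(j₁ * i₁)
  /-- the square of `i₁` -/
  sqi : i₁ * i₁ = algebraMap k E (A 0) • (1 : MQ E a b) + algebraMap k E (A 1) • z +
    algebraMap k E (A 2) • z ^ 2
  /-- the square of `j₁` -/
  sqj : j₁ * j₁ = algebraMap k E (B 0) • (1 : MQ E a b) + algebraMap k E (B 1) • z +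
    algebraMap k E (B 2) • z ^ 2
  /-- the square of `i₁` is not zero -/
  Ane : A ≠ 0
  /-- the square of `j₁` is not zero -/
  Bne : B ≠ 0
  /-- the quaternion algebra is definite only if `(a, b)` is definite -/
  real : ∀ (τ : k →+* ℝ) (x : ℝ), x ^ 3 = τ p₂ * x ^ 2 + τ p₁ * x + τ p₀ →
    τ (A 0) + τ (A 1) * x + τ (A 2) * x ^ 2 < 0 → τ (B 0) + τ (B 1) * x + τ (B 2) * x ^ 2 < 0 →
    τ a < 0 ∧ τ b < 0
  /-- the quaternion algebra is definite if `(a, b)` is definite, at the real places which do not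
  split in `K` -/
  real' : ∀ (τ : k →+* ℝ) (x : ℝ), x ^ 3 = τ p₂ * x ^ 2 + τ p₁ * x + τ p₀ → τ kap < 0 →
    τ a < 0 → τ b < 0 → τ (A 0) + τ (A 1) * x + τ (A 2) * x ^ 2 < 0 ∧
      τ (B 0) + τ (B 1) * x + τ (B 2) * x ^ 2 < 0

end Vale.Agent.P011.E6W.H684
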