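import Vale.Agent.P011.E6W.H684.P1j
import Vale.Agent.P011.E6W.H541.Near
import Vale.Agent.P011.E6W.H7.Fin0

/-!
Block E6W (B): the stabilizers of the frames close to the standard frame are contained in the
finite residual.
-/

open NumberField Matrix IsDedekindDomain

namespace Vale.Agent.P011.E6W.H684

open Vale.Agent.P011.MPQ hiding mat
open Vale.Agent.P011.D4 Vale.Agent.P011.D4.Oct Vale.Agent.P011.E6
open Vale.Agent.P011.E6O (GO Res KK)
open Vale.Agent.P011.E6W.H183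

variable {k E : Type} [Field k] [NumberField k] [Field E] [NumberField E] [Algebra k E]
  {ρ σ : E ≃ₐ[k] E} {lam : Eˣ} {g : Fin 3 → Eˣ} {th s : E} {kap a b c : kˣ}

/-- **(B)** -/
theorem frRes (W : WH ρ σ lam g th s kap a b c) (hK : KTop k (KK ρ))
    (hgood : ∀ τ : k →+* ℝ, τ a < 0 → τ b < 0 ∧ τ c < 0) {z₀ v₀ : Matrix (Fin 3) (Fin 3) E}
    {q₁ q₀ : k} {w₀ : E →+* ℝ} (B : Base ρ σ lam g a b c z₀ v₀ q₁ q₀ w₀) :
    FrRes ρ σ lam g a b c z₀ v₀ := by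
  obtain ⟨t, ht, h⟩ := H541.near_cert2 W B
  refine ⟨t, ht, fun z v p₂ p₁ p₀ hF hz hv f hf hfix => ?_⟩
  obtain ⟨i₁, j₁, A, A', C⟩ := h z v p₂ p₁ p₀ hF hz hv
  exact frame_res W hK (fun τ ha _ => (hgood τ ha).2) ⟨w₀, B.dfn.1, B.dfn.2.1⟩ C hf hfix

/-- **The elements close to the identity belong to the finite residual.** -/
theorem near_res (W : WH ρ σ lam g th s kap a b c) (hK : KTop k (KK ρ))
    (hSix : ∀ {a b c : kˣ} (W : WH ρ σ lam g th s kap a b c),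
      One.Tdiv k (KW W) (BW W) = ∅ → SixAt W) :
    ∃ t : ℝ, 0 < t ∧ ∀ φ ∈ GO ρ σ lam g a b c, H7.NearA t φ → φ ∈ Res ρ σ lam g a b c :=
  H7.near_res W hSix fun W hgood _ _ _ _ _ B _ => frRes W hK hgood B

end Vale.Agent.P011.E6W.H684
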