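import Vale.Agent.P011.E6W.H684.Tow

/-!
Block E6W, frames: the group `GS` has no proper subgroup of finite index.
-/

open NumberField

namespace Vale.Agent.P011.E6W.H684

open Vale.Agent.P011.MPQ Vale.Agent.P011.D4 Vale.Agent.P011.D4.Oct Vale.Agent.P011.E6
open Vale.Agent.P011.D4X Vale.Agent.P011.D4Y Vale.Agent.P011.D4X.H62

/-- The trialitarian groups of noncyclic cubic extensions have no proper subgroup of finite
index. -/
def TIAll (k L : Type) [Field k] [NumberField k] [Field L] [NumberField L] [Algebra k L] : Prop :=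
  ∀ (E : Type) [Field E] [NumberField E] [Algebra k E] [Algebra L E] [IsScalarTower k L E]
    (ρ σ ι : E ≃ₐ[k] E) (α : E) (a b c : kˣ) (q : Lˣ), HyI ρ σ ι α a b c q →
    (∀ τ : k →+* ℝ, τ a < 0 → τ b < 0 ∧ τ c < 0) →
    ∀ N : Subgroup (GTI ρ σ ι α a b c q), N.index ≠ 0 → N = ⊤

/-- The element `s₀ + s₁ i`. -/
def qS {k M : Type} [Field k] [Field M] [Algebra k M] (a b : kˣ) (s0 s1 : M) :
    Qt (up M a) (up M b) := ⟨s0, s1, 0, 0⟩

section main

variable {k L M : Type} [Field k] [NumberField k] [Field L] [NumberField L] [Field M]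
  [NumberField M] [Algebra k L] [Algebra k M] [Algebra L M] [IsScalarTower k L M]
  {ρ σ ι : M ≃ₐ[k] M} {a b c : kˣ} {s0 s1 : M} {n : kˣ} {Φ : Lˣ}

/-- The data of the semilinear map: `s₀ ∈ F`, `s₁ ∈ θ F`. -/
structure SD (ρ σ ι : M ≃ₐ[k] M) (a b : kˣ) (s0 s1 : M) (n : kˣ) (Φ : Lˣ) : Prop where
  σ0 : σ s0 = s0
  ι0 : ι s0 = ρ (ρ s0)
  σ1 : σ s1 = -s1
  ι1 : ι s1 = ρ (ρ s1)
  N : qS a b s0 s1 * qmap ρ (qS a b s0 s1) * qmap ρ (qmap ρ (qS a b s0 s1)) =
    algebraMap k M n • (1 : Qt (up M a) (up M b))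
  Φ : algebraMap L M Φ = s0 ^ 2 - algebraMap k M a * s1 ^ 2

omit [NumberField k] [NumberField L] [NumberField M] in
theorem re_mul3 {F : Type} [Field F] {a b : Fˣ} (s t s' t' s'' t'' : F) :
    ((⟨s, t, 0, 0⟩ : Qt a b) * ⟨s', t', 0, 0⟩ * ⟨s'', t'', 0, 0⟩).re =
      s * s' * s'' + a * (s * t' * t'' + t * s' * t'' + t * t' * s'') := by
  rw [QuaternionAlgebra.re_mul, QuaternionAlgebra.re_mul, QuaternionAlgebra.imI_mul,
    QuaternionAlgebra.imJ_mul, QuaternionAlgebra.imK_mul]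
  ring

omit [NumberField k] [NumberField L] [NumberField M] in
theorem imI_mul3 {F : Type} [Field F] {a b : Fˣ} (s t s' t' s'' t'' : F) :
    ((⟨s, t, 0, 0⟩ : Qt a b) * ⟨s', t', 0, 0⟩ * ⟨s'', t'', 0, 0⟩).imI =
      s * s' * t'' + s * t' * s'' + t * s' * s'' + a * (t * t' * t'') := by
  rw [QuaternionAlgebra.imI_mul, QuaternionAlgebra.re_mul, QuaternionAlgebra.imI_mul,
    QuaternionAlgebra.imJ_mul, QuaternionAlgebra.imK_mul]
  ring

omit [NumberField k] [NumberField L] [NumberField M] [Algebra k L] [IsScalarTower k L M] in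
theorem SD.re (h : SD ρ σ ι a b s0 s1 n Φ) :
    s0 * ρ s0 * ρ (ρ s0) + algebraMap k M a * (s0 * ρ s1 * ρ (ρ s1) + s1 * ρ s0 * ρ (ρ s1) +
      s1 * ρ s1 * ρ (ρ s0)) = algebraMap k M n := by
  have h1 := congrArg QuaternionAlgebra.re h.N
  have h2 : qmap ρ (qS a b s0 s1) = ⟨ρ s0, ρ s1, 0, 0⟩ :=
    QuaternionAlgebra.ext rfl rfl (map_zero ρ) (map_zero ρ)
  have h3 : qmap ρ (⟨ρ s0, ρ s1, 0, 0⟩ : Qt (up M a) (up M b)) =
      ⟨ρ (ρ s0), ρ (ρ s1), 0, 0⟩ :=
    QuaternionAlgebra.ext rfl rfl (map_zero ρ) (map_zero ρ)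
  rw [h2, h3, qS, re_mul3] at h1
  have h4 : (algebraMap k M n • (1 : Qt (up M a) (up M b))).re = algebraMap k M n := mul_one _
  rw [h4] at h1
  rw [← h1]
  rfl

omit [NumberField k] [NumberField L] [NumberField M] [Algebra k L] [IsScalarTower k L M] in
theorem SD.im (h : SD ρ σ ι a b s0 s1 n Φ) :
    s0 * ρ s0 * ρ (ρ s1) + s0 * ρ s1 * ρ (ρ s0) + s1 * ρ s0 * ρ (ρ s0) +
      algebraMap k M a * (s1 * ρ s1 * ρ (ρ s1)) = 0 := by
  have h1 := congrArg QuaternionAlgebra.imI h.N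
  have h2 : qmap ρ (qS a b s0 s1) = ⟨ρ s0, ρ s1, 0, 0⟩ :=
    QuaternionAlgebra.ext rfl rfl (map_zero ρ) (map_zero ρ)
  have h3 : qmap ρ (⟨ρ s0, ρ s1, 0, 0⟩ : Qt (up M a) (up M b)) =
      ⟨ρ (ρ s0), ρ (ρ s1), 0, 0⟩ :=
    QuaternionAlgebra.ext rfl rfl (map_zero ρ) (map_zero ρ)
  rw [h2, h3, qS, imI_mul3] at h1
  have h4 : (algebraMap k M n • (1 : Qt (up M a) (up M b))).imI = 0 := mul_zero _
  rw [h4] at h1
  rw [← h1]
  rfl

/-- **The group `GS` has no proper subgroup of finite index.** -/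
theorem gs_top (hTI : TIAll k L) (H : MH (L := L) ρ σ ι) (hdiv : Division a b c)
    (hdef : ∀ τ : k →+* ℝ, τ a < 0 → τ b < 0 ∧ τ c < 0)
    (ha : ∀ x : M, x * x ≠ algebraMap k M a) (hS : SD ρ σ ι a b s0 s1 n Φ)
    (hcp : ∃ τ : k →+* ℝ, τ a < 0 ∧ ∀ w : L →+* ℝ, w.comp (algebraMap k L) = τ → 0 < w (Φ : L))
    (N : Subgroup (GS ρ σ ι c (qS a b s0 s1) (algebraMap k M n / ρ (algebraMap L M Φ))))
    (hN : N.index ≠ 0) : N = ⊤ := by
  have h2M : NeZero (2 : M) := ⟨two_ne_zero⟩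
  obtain ⟨E1, O, _, _, _, _, _, _, _, _, _, _, _, _, _, _, _, _, ρ1, σ1, ι1, α1, ρ', σ', τ', ι',
    T⟩ := exists_tow (L := L) H ha
  have h2O : NeZero (2 : O) := ⟨two_ne_zero⟩
  have hMO : Function.Injective (algebraMap M O) := (algebraMap M O).injective
  -- the data over `O`
  obtain ⟨α, hα⟩ : ∃ α : O, α = algebraMap E1 O α1 := ⟨_, rfl⟩
  obtain ⟨φ, hφ⟩ : ∃ φ : O, φ = algebraMap M O s0 + algebraMap M O s1 * α := ⟨_, rfl⟩
  obtain ⟨φ', hφ'⟩ : ∃ φ' : O, φ' = algebraMap M O s0 - algebraMap M O s1 * α := ⟨_, rfl⟩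
  obtain ⟨n', hn'⟩ : ∃ n' : O, n' = algebraMap k O n := ⟨_, rfl⟩
  have hαα : α * α = algebraMap k O a := by
    rw [hα, ← map_mul, T.α12, ← IsScalarTower.algebraMap_apply k E1 O]
  have hkO : ∀ x : k, algebraMap k O x = algebraMap M O (algebraMap k M x) := fun x =>
    IsScalarTower.algebraMap_apply k M O x
  have hρα : ρ' α = α := by rw [hα, T.ρE1, T.ρα1]
  have hσα : σ' α = α := by rw [hα, T.σE1]
  have hτα : τ' α = -α := by rw [hα, T.τE1, T.σα1, map_neg]
  have hια : ι' α = α := by rw [hα, T.ιE1, T.ια1]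
  have hT : HT ρ' σ' τ' ι' a α φ φ' n' :=
    { al := hαα
      ρα := hρα
      σα := hσα
      τα := hτα
      ια := hια
      ρ3 := T.ρ3
      ι2 := T.ι2
      τ2 := T.τ2
      σ2 := T.σ2
      σρ := T.σρ
      τρ := T.τρ
      στ := T.στ
      ιρ := T.ιρ
      ισ := T.ισ
      ιτ := T.ιτ
      σφ := by rw [hφ, hφ', map_add, map_mul, T.σE, T.σE, hσα, hS.σ0, hS.σ1, map_neg]; ring
      τφ := by rw [hφ, hφ', map_add, map_mul, T.τE, T.τE, hτα]; ring
      ιφ := by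
        rw [hφ, map_add, map_mul, T.ιE, T.ιE, hια, hS.ι0, hS.ι1, map_add, map_add, map_mul,
          map_mul, T.ρE, T.ρE, T.ρE, T.ρE, hρα, hρα]
      N := by
        have h1 := congrArg (algebraMap M O) hS.re
        have h2 := congrArg (algebraMap M O) hS.im
        simp only [map_add, map_mul, map_zero, ← hkO, ← hαα] at h1 h2
        rw [hφ, hn', map_add, map_mul, map_add, map_mul, T.ρE, T.ρE, T.ρE, T.ρE, hρα, hρα]
        linear_combination h1 + α * h2
      ρn := by rw [hn', AlgEquiv.commutes]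
      σn := by rw [hn', AlgEquiv.commutes]
      τn := by rw [hn', AlgEquiv.commutes]
      ιn := by rw [hn', AlgEquiv.commutes]
      n0 := by
        rw [hn']
        exact (map_ne_zero _).2 n.ne_zero }
  have hΦ : algebraMap L O Φ = φ * φ' := by
    rw [IsScalarTower.algebraMap_apply L M O, hS.Φ, hφ, hφ', map_sub, map_mul, map_pow, map_pow,
      ← hkO, ← hαα]
    ring
  -- the parameter
  let q : Lˣ := (up L n) ^ 2 / Φ ^ 3
  have hq : algebraMap L O (q : L) = n' ^ 2 / (φ * φ') ^ 3 := by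
    change algebraMap L O (((up L n) ^ 2 / Φ ^ 3 : Lˣ) : L) = _
    rw [Units.val_div_eq_div_val, Units.val_pow_eq_pow_val, Units.val_pow_eq_pow_val, map_div₀,
      map_pow, map_pow, hΦ, hn']
    congr 2
    exact (IsScalarTower.algebraMap_apply k L O _).symm
  have e1 := hT.φ0
  have e2 := hT.φ0'
  have e3 := hT.n0
  have hq1 : gam φ φ' n' * τ' (gam φ φ' n') * algebraMap L O (q : L) = 1 := by
    rw [hT.τ_gam, hq, gam]
    field_simp
  have hqE : algebraMap L E1 (q : L) * ρ1 (algebraMap L E1 (q : L)) *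
      ρ1 (ρ1 (algebraMap L E1 (q : L))) = 1 := by
    apply (algebraMap E1 O).injective
    rw [map_mul, map_mul, ← T.ρE1, ← T.ρE1, ← T.ρE1, ← IsScalarTower.algebraMap_apply L E1 O, hq,
      map_one]
    simp only [map_div₀, map_pow, map_mul, hT.ρn]
    have e4 : ρ' φ ≠ 0 := (map_ne_zero ρ').2 e1
    have e5 : ρ' φ' ≠ 0 := (map_ne_zero ρ').2 e2
    have e6 : ρ' (ρ' φ) ≠ 0 := (map_ne_zero ρ').2 e4
    have e7 : ρ' (ρ' φ') ≠ 0 := (map_ne_zero ρ').2 e5
    have h1 := hT.N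
    have h2 := hT.N'
    have h3 : (φ * ρ' φ * ρ' (ρ' φ)) ^ 3 * (φ' * ρ' φ' * ρ' (ρ' φ')) ^ 3 = n' ^ 6 := by
      rw [h1, h2]; ring
    field_simp
    linear_combination -h3
  have hH1 : HyI ρ1 σ1 ι1 α1 a b c q :=
    { h3 := H.h3
      ρL := T.ρ1L
      ρ3 := T.ρ13
      σ2 := T.σ12
      ι2 := T.ι12
      comm := T.comm1
      σι := T.σι1
      ιρ := T.ιρ1
      σL := T.σ1L
      ιL := T.ι1L
      fixL := T.fixL1
      fixk := T.fixk1
      α2 := T.α12
      ρα := T.ρα1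
      σα := T.σα1
      ια := T.ια1
      hq := hqE
      hdiv := hdiv
      hcp := by
        obtain ⟨τ, h1, h2⟩ := hcp
        refine ⟨τ, h1, fun w hw => ?_⟩
        have h3 := h2 w hw
        have h4 : w (q : L) = w (algebraMap k L n) ^ 2 / w (Φ : L) ^ 3 := by
          change w (((up L n) ^ 2 / Φ ^ 3 : Lˣ) : L) = _
          rw [Units.val_div_eq_div_val, Units.val_pow_eq_pow_val, Units.val_pow_eq_pow_val,
            map_div₀, map_pow, map_pow]
          rfl
        have h5 : w (algebraMap k L n) ≠ 0 :=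
          (map_ne_zero w).2 ((map_ne_zero _).2 n.ne_zero)
        rw [h4]
        positivity
      hre := fun τ h1 _ => hdef τ h1 }
  have hg := hT.gam_ne
  have hg1 := hT.ρgam_ne
  have hKG : KG ρ σ ι ρ1 σ1 ι1 ρ' σ' τ' ι' α1 q (qS a b s0 s1)
      (algebraMap k M n / ρ (algebraMap L M Φ))
      (zE (a := a) (b := b) (c := c) ρ' (mq a b α (gam φ φ' n')) 1 (ρ' (gam φ φ' n'))⁻¹
        (by rw [nrd_mq hT.al]; exact hg) (by rw [nrd_one]; exact one_ne_zero)
        (inv_ne_zero hg1)) :=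
    { hρ := T.ρE
      hσ := T.σE
      hτ := T.τE
      hι := T.ιE
      fτ := T.fixτ
      hρ1 := T.ρE1
      hσ1 := T.σE1
      hτ1 := T.τE1
      hι1 := T.ιE1
      fσ := T.fixσ
      hu := ⟨_, hg1, fun x y => hT.tri x y⟩
      hJ := by
        refine ⟨_, mul_ne_zero e2 ((map_ne_zero ρ').2 ((map_ne_zero ρ').2 e2)), fun x => ?_⟩
        have h1 : qin O (qS a b s0 s1) = mk4 (up O a) (up O b) α φ φ' 0 0 := by
          have hα0 : α ≠ 0 := al_ne (a := up O a) hαα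
          apply QuaternionAlgebra.ext
          · change algebraMap M O s0 = (φ + φ') / 2
            rw [hφ, hφ']
            field_simp
            ring
          · change algebraMap M O s1 = (φ - φ') / (2 * α)
            rw [hφ, hφ']
            field_simp
            ring
          · change algebraMap M O 0 = (0 + 0) / 2
            simp
          · change algebraMap M O 0 = (0 - 0) / (2 * α)
            simp
        have h2 : algebraMap M O (algebraMap k M n / ρ (algebraMap L M Φ)) =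
            n' / ρ' (φ * φ') := by
          rw [map_div₀, ← T.ρE, ← IsScalarTower.algebraMap_apply L M O, hΦ, hn', ← hkO]
        rw [h1, h2]
        exact hT.hJS x
      hJ1 := by
        have hq0 : algebraMap L O (q : L) ≠ 0 := (map_ne_zero _).2 q.ne_zero
        refine ⟨_, div_ne_zero hg1 hq0, fun x => ?_⟩
        rw [← hα]
        exact hT.hJq hq1 x
      hI := ⟨1, one_ne_zero, fun x => by
        rw [one_smul]
        exact hT.Im x⟩ }
  exact hKG.top (hTI E1 ρ1 σ1 ι1 α1 a b c q hH1 hdef) N hN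

end main

end Vale.Agent.P011.E6W.H684
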