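import Vale.Agent.P011.E6W.H684.PDefs
import Vale.Agent.P011.E6W.H7.Kl1

/-!
Block E6W (B1): the hermitian form in the coordinates of a frame.
-/

open Matrix

namespace Vale.Agent.P011.E6W.H684

open Vale.Agent.P011.MPQ hiding mat
open Vale.Agent.P011.D4 Vale.Agent.P011.D4.Oct Vale.Agent.P011.E6
open Vale.Agent.P011.E6.Alb
open Vale.Agent.P011.E6I (MQ toMQ toMQ_apply Mp S0 S1 S2 FixK cj cj_inv cj_inv' cj_ofF S0_transpose
  S1_transpose S2_transpose comm_cj tf_cj_adj)
open Vale.Agent.P011.E6I.Fx (FixL MpL comm_vP det_S0)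
open Vale.Agent.P011.E6O (her)
open Vale.Agent.P011.E6W.H7 (smU cj_eq_act)

section alg

variable {F : Type} [Field F] {a b c : Fˣ}

/-- The trace form and the action. -/
theorem tf_act_act (h2 : (2 : F) ≠ 0) {M n H : (Matrix (Fin 3) (Fin 3) (Qt a b))ˣ}
    (hH : (H : Matrix (Fin 3) (Fin 3) (Qt a b)) = (n : Matrix (Fin 3) (Fin 3) (Qt a b))ᴴ * M)
    {κ₁ κ₂ : Qt a b} (hκ : nrd κ₂ ≠ 0) (x y : Alb a b c) :
    tf (act M κ₁ x) (act n κ₂ y) = tf (act H (star κ₂ * κ₁) x) y := by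
  have h1 : (n : Matrix (Fin 3) (Fin 3) (Qt a b))ᴴ * dg a b 1 *
      ((M * H⁻¹ : (Matrix (Fin 3) (Fin 3) (Qt a b))ˣ) : Matrix (Fin 3) (Fin 3) (Qt a b)) =
      dg a b 1 := by
    have e : dg a b (1 : Fin 3 → Fˣ) = 1 := by
      rw [dg, ← Matrix.diagonal_one]
      congr 1
    rw [e, Matrix.mul_one, Units.val_mul, ← Matrix.mul_assoc, ← hH, Units.mul_inv]
  have h3 : star κ₂ * ((nrd κ₂)⁻¹ • κ₂) = ((1 : F) : Qt a b) := by
    rw [mul_smul_comm, H64.star_mul_qt, ← QuaternionAlgebra.coe_smul, smul_eq_mul,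
      inv_mul_cancel₀ hκ]
  have h4 : act M κ₁ x = act (M * H⁻¹) ((nrd κ₂)⁻¹ • κ₂) (act H (star κ₂ * κ₁) x) := by
    rw [H64.act_act h2, inv_mul_cancel_right, ← mul_assoc, smul_mul_assoc, H64.mul_star_qt,
      ← QuaternionAlgebra.coe_smul, smul_eq_mul, inv_mul_cancel₀ hκ, QuaternionAlgebra.coe_one,
      one_mul]
  have h5 : ∀ z : Alb a b c, wt 1 z = z := by
    intro z
    apply Alb.ext <;> simp [wt]
  have h6 := H64.tf_act h2 h1 h3 (g' := 1) (by simp) (act H (star κ₂ * κ₁) x) y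
  rw [h5, h5] at h6
  rw [h4, h6]

theorem cj_neg_mat (S : Matrix (Fin 3) (Fin 3) F) (x : Alb a b c) : cj (-S) x = cj S x := by
  apply Alb.ext <;> simp [E6I.cj, E6I.dia, E6I.ent]

end alg

section gen

variable {k E : Type} [Field k] [Field E] [Algebra k E] {σ : E ≃ₐ[k] E} {g : Fin 3 → Eˣ}
  {a b c : kˣ}

/-- The diagonal matrix of the weights, as a unit. -/
def dgU (a b : kˣ) (g : Fin 3 → Eˣ) : (MQ E a b)ˣ :=
  ⟨dg (up E a) (up E b) g, H64.dgi (up E a) (up E b) g, H64.dg_mul_dgi g, H64.dgi_mul_dg g⟩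

theorem wt_eq_act (h2 : (2 : E) ≠ 0) (x : AlbL E a b c) :
    wt g x = act (dgU a b g) (((g 0 : E) * g 1 * g 2 : E) : Qt (up E a) (up E b)) x := by
  apply H64.ext_mat_vec
  · rw [H183.mat_wt, H64.mat_act h2]
    change _ = dg (up E a) (up E b) g * mat x * (dg (up E a) (up E b) g)ᴴ
    rw [H64.dg_conjTranspose]
  · rw [H64.row_vec_act]
    change H64.row (Alb.vec (wt g x)) = H64.q1 (((g 0 : E) * g 1 * g 2 : E) : Qt (up E a) (up E b)) *
      (H64.row (Alb.vec x) * H64.dgi (up E a) (up E b) g)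
    apply Matrix.ext
    intro i j
    have h0 := (g 0).ne_zero
    have h1 := (g 1).ne_zero
    have h2 := (g 2).ne_zero
    have hi : ∀ j, H64.dgi (up E a) (up E b) g j j =
        (((g j)⁻¹ : Eˣ) : E) • (1 : Qt (up E a) (up E b)) := by
      intro j
      rw [H64.dgi, Matrix.diagonal_apply_eq, Algebra.algebraMap_eq_smul_one]
    have hn : ∀ i j, i ≠ j → H64.dgi (up E a) (up E b) g i j = 0 := by
      intro i j h
      rw [H64.dgi, Matrix.diagonal_apply_ne _ h]
    have key : ∀ j, (H64.q1 (((g 0 : E) * g 1 * g 2 : E) : Qt (up E a) (up E b)) *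
        (H64.row (Alb.vec x) * H64.dgi (up E a) (up E b) g)) i j =
        ((g 0 : E) * g 1 * g 2 * (((g j)⁻¹ : Eˣ) : E)) • Alb.vec x j := by
      intro j
      have e1 : (H64.row (Alb.vec x) * H64.dgi (up E a) (up E b) g) 0 j =
          (((g j)⁻¹ : Eˣ) : E) • Alb.vec x j := by
        rw [Matrix.mul_apply, Finset.sum_eq_single j]
        · rw [hi, mul_smul_comm, mul_one]
          rfl
        · intro l _ hl
          rw [hn l j hl, mul_zero]
        · intro h
          exact absurd (Finset.mem_univ j) h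
      rw [Matrix.mul_apply, Finset.univ_unique, Finset.sum_singleton]
      change ((((g 0 : E) * g 1 * g 2 : E) : Qt (up E a) (up E b))) *
        (H64.row (Alb.vec x) * H64.dgi (up E a) (up E b) g) 0 j = _
      rw [e1, QuaternionAlgebra.coe_mul_eq_smul, smul_smul]
    rw [key]
    fin_cases j
    · change ((g 1 : E) * g 2) • x.x1.snd =
        ((g 0 : E) * g 1 * g 2 * (((g 0)⁻¹ : Eˣ) : E)) • x.x1.snd
      congr 1
      rw [Units.val_inv_eq_inv_val]
      field_simp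
    · change ((g 2 : E) * g 0) • x.x2.snd =
        ((g 0 : E) * g 1 * g 2 * (((g 1)⁻¹ : Eˣ) : E)) • x.x2.snd
      congr 1
      rw [Units.val_inv_eq_inv_val]
      field_simp
    · change ((g 0 : E) * g 1) • x.x3.snd =
        ((g 0 : E) * g 1 * g 2 * (((g 2)⁻¹ : Eˣ) : E)) • x.x3.snd
      congr 1
      rw [Units.val_inv_eq_inv_val]
      field_simp

/-- The hermitian form after a similitude. -/
theorem her_act' (h2 : (2 : E) ≠ 0) {m H : (MQ E a b)ˣ}
    (hH : (H : MQ E a b) = ((m : MQ E a b).map (qmap σ))ᴴ * dg (up E a) (up E b) g * m)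
    {κ : Qt (up E a) (up E b)} (hκ : nrd κ ≠ 0) (x y : AlbL E a b c) :
    her σ g (act m κ x) (act m κ y) =
      tf (act H (((g 0 : E) * g 1 * g 2) • (star (qmap σ κ) * κ)) x) (amap σ y) := by
  have h3 : nrd (qmap σ κ) ≠ 0 := by
    rw [nrd_qmap]
    exact (map_ne_zero σ).2 hκ
  rw [her, wt_eq_act h2, H64.act_act h2, H64.amap_act h2, tf_act_act h2 (H := H) ?_ h3]
  · congr 2
    rw [QuaternionAlgebra.coe_mul_eq_smul, mul_smul_comm]
  · rw [hH, H64.umap_val, Matrix.mul_assoc]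
    rfl

/-- The conjugate of a linear map by an automorphism of the field. -/
def sgE (hσ : ∀ x, σ (σ x) = x) (G : AlbL E a b c ≃ₗ[E] AlbL E a b c) :
    AlbL E a b c ≃ₗ[E] AlbL E a b c where
  toFun x := amap σ (G (amap σ x))
  invFun x := amap σ (G.symm (amap σ x))
  left_inv x := by
    beta_reduce
    rw [Alb.amap_amap σ hσ, LinearEquiv.symm_apply_apply, Alb.amap_amap σ hσ]
  right_inv x := by
    beta_reduce
    rw [Alb.amap_amap σ hσ, LinearEquiv.apply_symm_apply, Alb.amap_amap σ hσ]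
  map_add' x y := by rw [amap_add, map_add, amap_add]
  map_smul' t x := by rw [amap_smul, map_smul, amap_smul, hσ, RingHom.id_apply]

theorem sgE_apply (hσ : ∀ x, σ (σ x) = x) (G : AlbL E a b c ≃ₗ[E] AlbL E a b c)
    (x : AlbL E a b c) : sgE hσ G x = amap σ (G (amap σ x)) := rfl

theorem sgE_amap (hσ : ∀ x, σ (σ x) = x) (G : AlbL E a b c ≃ₗ[E] AlbL E a b c)
    (x : AlbL E a b c) : sgE hσ G (amap σ x) = amap σ (G x) := by
  rw [sgE_apply, Alb.amap_amap σ hσ]

theorem amap_ofF' (S : Matrix (Fin 3) (Fin 3) k) :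
    amap σ (ofF (S.map (algebraMap k E)) : AlbL E a b c) = ofF (S.map (algebraMap k E)) := by
  have h1 : ∀ t : k, omap σ ((algebraMap k E t) • (1 : OctL E a b c)) =
      (algebraMap k E t) • (1 : OctL E a b c) := by
    intro t
    rw [omap_smul, σ.commutes, omap_one]
  apply Alb.ext
  · exact σ.commutes _
  · exact σ.commutes _
  · exact σ.commutes _
  · exact h1 _
  · exact h1 _
  · exact h1 _

variable {p0 p1 p2 : k}

theorem S0_map : S0 (algebraMap k E p1) (algebraMap k E p2) = (S0 p1 p2).map (algebraMap k E) := by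
  ext i j
  fin_cases i <;> fin_cases j <;> simp [S0]

theorem S1_map : S1 (algebraMap k E p0) (algebraMap k E p2) = (S1 p0 p2).map (algebraMap k E) := by
  ext i j
  fin_cases i <;> fin_cases j <;> simp [S1]

theorem S2_map : S2 (algebraMap k E p0) (algebraMap k E p1) = (S2 p0 p1).map (algebraMap k E) := by
  ext i j
  fin_cases i <;> fin_cases j <;> simp [S2]

theorem Mp_map : MpL E p0 p1 p2 = (Mp p0 p1 p2).map (algebraMap k E) := by
  ext i j
  fin_cases i <;> fin_cases j <;> simp [Mp]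

theorem sgE_mem (hσ : ∀ x, σ (σ x) = x) {G : AlbL E a b c ≃ₗ[E] AlbL E a b c}
    (hG : G ∈ FixL E p0 p1 p2 a b c) : sgE hσ G ∈ FixL E p0 p1 p2 a b c := by
  obtain ⟨h1, h2, h3, h4⟩ := hG
  refine ⟨fun x => ?_, ?_, ?_, ?_⟩
  · rw [sgE_apply, cub_amap, h1, cub_amap, hσ]
  · rw [S0_map] at h2 ⊢
    rw [sgE_apply, amap_ofF', h2, amap_ofF']
  · rw [S1_map] at h3 ⊢
    rw [sgE_apply, amap_ofF', h3, amap_ofF']
  · rw [S2_map] at h4 ⊢
    rw [sgE_apply, amap_ofF', h4, amap_ofF']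

/-- The map `T = S₀ · act H κ`. -/
def TH (H : (MQ E a b)ˣ) (κ : Qt (up E a) (up E b)) (p1 p2 : k) (x : AlbL E a b c) :
    AlbL E a b c := cj (S0 (algebraMap k E p1) (algebraMap k E p2)) (act H κ x)

theorem detS0_ne : (S0 (algebraMap k E p1) (algebraMap k E p2)).det ≠ 0 := by
  rw [det_S0]
  exact neg_ne_zero.mpr one_ne_zero

/-- **The criterion**: an element which fixes the frame preserves the form `tf (act H κ x) (σ y)`
if and only if it commutes with `σ T`. -/
theorem crit [NeZero (2 : E)] (hσ : ∀ x, σ (σ x) = x) {G : AlbL E a b c ≃ₗ[E] AlbL E a b c}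
    (hG : G ∈ FixL E p0 p1 p2 a b c) {H : (MQ E a b)ˣ} {κ : Qt (up E a) (up E b)} :
    (∀ x y, tf (act H κ (G x)) (amap σ (G y)) = tf (act H κ x) (amap σ y)) ↔
      ∀ x, G (amap σ (TH H κ p1 p2 x)) = amap σ (TH H κ p1 p2 (G x)) := by
  set S := S0 (algebraMap k E p1) (algebraMap k E p2) with hS
  have hSt : Sᵀ = S := S0_transpose _ _
  have hd : S.det ≠ 0 := detS0_ne
  have hd1 : S.det = -1 := det_S0 _ _
  have hadj : S.adjugate * S = -1 := by
    rw [Matrix.adjugate_mul, hd1, neg_one_smul]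
  have hadj' : S * S.adjugate = -1 := by
    rw [Matrix.mul_adjugate, hd1, neg_one_smul]
  have hc1 : ∀ x : AlbL E a b c, cj S.adjugate (cj S x) = x := by
    intro x
    rw [← E6I.cj_mul, hadj, cj_neg_mat, E6I.cj_one]
  have hc2 : ∀ x : AlbL E a b c, cj S (cj S.adjugate x) = x := by
    intro x
    rw [← E6I.cj_mul, hadj', cj_neg_mat, E6I.cj_one]
  have hGs := sgE_mem hσ hG
  have h1 : ∀ x y, tf (cj S.adjugate (sgE hσ G x)) (sgE hσ G y) = tf (cj S.adjugate x) y :=
    tf_cj_adj hGs.1 hSt hGs.2.1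
  have h2 : ∀ x, sgE hσ G (TH H κ p1 p2 x) = amap σ (G (amap σ (TH H κ p1 p2 x))) := fun x => rfl
  have h3 : (∀ x, G (amap σ (TH H κ p1 p2 x)) = amap σ (TH H κ p1 p2 (G x))) ↔
      ∀ x, sgE hσ G (TH H κ p1 p2 x) = TH H κ p1 p2 (G x) := by
    constructor
    · intro h x
      rw [h2, h, Alb.amap_amap σ hσ]
    · intro h x
      rw [← h, h2, Alb.amap_amap σ hσ]
  rw [h3]
  constructor
  · intro h x
    have h4 : ∀ y, tf (cj S.adjugate (sgE hσ G (TH H κ p1 p2 x))) (sgE hσ G y) =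
        tf (cj S.adjugate (TH H κ p1 p2 (G x))) (sgE hσ G y) := by
      intro y
      rw [h1, TH, TH, hc1, hc1]
      have h5 := h x (amap σ y)
      rw [Alb.amap_amap σ hσ] at h5
      rw [← h5]
      rfl
    have h5 : cj S.adjugate (sgE hσ G (TH H κ p1 p2 x)) =
        cj S.adjugate (TH H κ p1 p2 (G x)) := by
      apply eq_of_tf
      intro z
      obtain ⟨y, rfl⟩ := (sgE hσ G).surjective z
      exact h4 y
    have h6 := congrArg (cj S) h5
    rwa [hc2, hc2] at h6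
  · intro h x y
    have h4 := h1 (TH H κ p1 p2 x) (amap σ y)
    rw [h, sgE_amap, TH, TH, hc1, hc1] at h4
    exact h4

end gen

end Vale.Agent.P011.E6W.H684
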