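import Vale.Agent.P011.E6W.H684.P1a

/-!
Block E6W (B1): the matrix `η = S₀ σ(Q)ᴴ Γ Q` of the hermitian form in the coordinates of a frame.
-/

open Matrix Polynomial

namespace Vale.Agent.P011.E6W.H684

open Vale.Agent.P011.MPQ hiding mat
open Vale.Agent.P011.D4 Vale.Agent.P011.D4.Oct Vale.Agent.P011.E6
open Vale.Agent.P011.E6.Alb
open Vale.Agent.P011.E6I (MQ toMQ toMQ_apply Mp S0 S1 S2 FixK S0_transpose S1_transpose
  S2_transpose)
open Vale.Agent.P011.E6I.Fx (FixL MpL det_S0 mul_S0 eq_of_comm)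
open Vale.Agent.P011.E6O (InD um)
open Vale.Agent.P011.E6W.H183 (adjM Rel WH map_add_qmap map_smul_qmap map_one_qmap conj_smul
  map_map_qmap map_comm_qmap um_map)

section sym

variable {F : Type} [Field F] {p0 p1 p2 : F}

/-- The matrices which commute with the companion matrix are symmetric for `S₀`. -/
theorem comm_S0 {A : Matrix (Fin 3) (Fin 3) F} (hA : A * Mp p0 p1 p2 = Mp p0 p1 p2 * A) :
    S0 p1 p2 * Aᵀ = A * S0 p1 p2 := by
  have h1 : (A * S0 p1 p2)ᵀ = A * S0 p1 p2 := by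
    rw [mul_S0 hA, Matrix.transpose_add, Matrix.transpose_add, Matrix.transpose_smul,
      Matrix.transpose_smul, Matrix.transpose_smul, S0_transpose, S1_transpose, S2_transpose]
  rwa [Matrix.transpose_mul, S0_transpose] at h1

/-- Two matrices which commute with the companion matrix commute. -/
theorem comm_comm {A B : Matrix (Fin 3) (Fin 3) F} (hA : A * Mp p0 p1 p2 = Mp p0 p1 p2 * A)
    (hB : B * Mp p0 p1 p2 = Mp p0 p1 p2 * B) : A * B = B * A := by
  rw [eq_of_comm hA]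
  simp only [Matrix.add_mul, Matrix.mul_add, Matrix.smul_mul, Matrix.mul_smul, Matrix.one_mul,
    Matrix.mul_one]
  rw [hB, Matrix.mul_assoc (Mp p0 p1 p2), ← hB, ← Matrix.mul_assoc (Mp p0 p1 p2), ← hB,
    Matrix.mul_assoc B]

theorem Mp_root (p0 p1 p2 : F) : (aeval (Mp p0 p1 p2)
    (X ^ 3 + C p2 * X ^ 2 + C p1 * X + C p0 : F[X])) = 0 := by
  simp only [map_add, map_mul, map_pow, aeval_X, aeval_C, Algebra.algebraMap_eq_smul_one,
    smul_mul_assoc, one_mul]
  rw [pow_succ, pow_two, E6I.Fx.Mp_sq]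
  ext i j
  fin_cases i <;> fin_cases j <;> simp [Mp] <;> ring

/-- The nonzero polynomials of the companion matrix are invertible, if there is no root. -/
theorem det_ne_of_comm (hroot : ∀ t : F, t ^ 3 + p2 * t ^ 2 + p1 * t + p0 ≠ 0)
    {A : Matrix (Fin 3) (Fin 3) F} (hA : A * Mp p0 p1 p2 = Mp p0 p1 p2 * A) (h0 : A ≠ 0) :
    A.det ≠ 0 := by
  have hdeg : (X ^ 3 + C p2 * X ^ 2 + C p1 * X + C p0 : F[X]).natDegree = 3 := by
    compute_degree!
  have hmon : (X ^ 3 + C p2 * X ^ 2 + C p1 * X + C p0 : F[X]).Monic := by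
    monicity!
  have hirr : Irreducible (X ^ 3 + C p2 * X ^ 2 + C p1 * X + C p0 : F[X]) := by
    rw [hmon.irreducible_iff_roots_eq_zero_of_degree_le_three
      (by rw [hdeg]; norm_num) (by rw [hdeg])]
    apply Multiset.eq_zero_of_forall_notMem
    intro s hs
    rw [mem_roots hmon.ne_zero, IsRoot.def] at hs
    simp only [eval_add, eval_mul, eval_pow, eval_X, eval_C] at hs
    exact hroot s hs
  obtain ⟨r, hr⟩ : ∃ r : F[X], r = C (A 0 0) + C (A 1 0) * X + C (A 2 0) * X ^ 2 := ⟨_, rfl⟩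
  have hrA : aeval (Mp p0 p1 p2) r = A := by
    conv_rhs => rw [eq_of_comm hA]
    rw [hr]
    simp only [map_add, map_mul, aeval_X, aeval_C, Algebra.algebraMap_eq_smul_one,
      smul_mul_assoc, one_mul, pow_two]
  have hr1 : r ≠ 0 := by
    intro h
    apply h0
    rw [← hrA, h, map_zero]
  have hrdeg : r.natDegree < 3 := by
    have : r.natDegree ≤ 2 := by
      rw [hr]
      compute_degree
    omega
  have hcop : IsCoprime (X ^ 3 + C p2 * X ^ 2 + C p1 * X + C p0 : F[X]) r := by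
    rw [hirr.coprime_iff_not_dvd]
    intro h
    have h1 := natDegree_le_of_dvd h hr1
    rw [hdeg] at h1
    omega
  obtain ⟨B, D, hBD⟩ := hcop
  have h1 := congrArg (aeval (Mp p0 p1 p2)) hBD
  rw [map_add, map_mul, map_mul, Mp_root, mul_zero, zero_add, map_one, hrA] at h1
  have h2 := congrArg Matrix.det h1
  rw [Matrix.det_mul, Matrix.det_one] at h2
  exact right_ne_zero_of_mul (h2 ▸ one_ne_zero)

theorem inv_comm {A : Matrix (Fin 3) (Fin 3) F} (hA : A * Mp p0 p1 p2 = Mp p0 p1 p2 * A)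
    (h0 : A.det ≠ 0) : A⁻¹ * Mp p0 p1 p2 = Mp p0 p1 p2 * A⁻¹ := by
  have hu := isUnit_iff_ne_zero.mpr h0
  have h1 : A⁻¹ * (A * Mp p0 p1 p2) * A⁻¹ = A⁻¹ * (Mp p0 p1 p2 * A) * A⁻¹ := by rw [hA]
  rw [Matrix.nonsing_inv_mul_cancel_left _ _ hu, Matrix.mul_assoc, Matrix.mul_assoc,
    Matrix.mul_nonsing_inv _ hu, Matrix.mul_one] at h1
  exact h1.symm

end sym

section re

variable {k E : Type} [Field k] [Field E] [Algebra k E] {a b : kˣ} {σ ρ : E ≃ₐ[k] E}

/-- The real parts of the entries. -/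
def Rm (X : MQ E a b) : Matrix (Fin 3) (Fin 3) E := X.map QuaternionAlgebra.re

theorem Rm_apply (X : MQ E a b) (i j : Fin 3) : Rm X i j = (X i j).re := rfl

theorem Rm_toMQ (T : Matrix (Fin 3) (Fin 3) E) : Rm (toMQ T : MQ E a b) = T := rfl

theorem Rm_add (X Y : MQ E a b) : Rm (X + Y) = Rm X + Rm Y := rfl

theorem Rm_smul (t : E) (X : MQ E a b) : Rm (t • X) = t • Rm X := rfl

theorem toMQ_mul_apply' (T : Matrix (Fin 3) (Fin 3) E) (X : MQ E a b) (i j : Fin 3) :
    ((toMQ T : MQ E a b) * X) i j = T i 0 • X 0 j + T i 1 • X 1 j + T i 2 • X 2 j := by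
  rw [Matrix.mul_apply, Fin.sum_univ_three]
  simp only [toMQ_apply, QuaternionAlgebra.coe_mul_eq_smul]

theorem mul_toMQ_apply' (T : Matrix (Fin 3) (Fin 3) E) (X : MQ E a b) (i j : Fin 3) :
    (X * (toMQ T : MQ E a b)) i j = T 0 j • X i 0 + T 1 j • X i 1 + T 2 j • X i 2 := by
  rw [Matrix.mul_apply, Fin.sum_univ_three]
  simp only [toMQ_apply, ← QuaternionAlgebra.coe_commutes, QuaternionAlgebra.coe_mul_eq_smul]

theorem Rm_toMQ_mul (T : Matrix (Fin 3) (Fin 3) E) (X : MQ E a b) :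
    Rm ((toMQ T : MQ E a b) * X) = T * Rm X := by
  ext i j
  rw [Rm_apply, toMQ_mul_apply', Matrix.mul_apply, Fin.sum_univ_three]
  rfl

theorem Rm_mul_toMQ (T : Matrix (Fin 3) (Fin 3) E) (X : MQ E a b) :
    Rm (X * (toMQ T : MQ E a b)) = Rm X * T := by
  ext i j
  rw [Rm_apply, mul_toMQ_apply', Matrix.mul_apply, Fin.sum_univ_three]
  simp only [QuaternionAlgebra.re_add, QuaternionAlgebra.re_smul, smul_eq_mul, Rm_apply]
  ring

theorem Rm_map (X : MQ E a b) : Rm (X.map (qmap σ)) = (Rm X).map σ := rfl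

theorem Rm_conj (X : MQ E a b) : Rm (Xᴴ) = (Rm X)ᵀ := by
  ext i j
  rw [Rm_apply, Matrix.conjTranspose_apply, QuaternionAlgebra.re_star, Matrix.transpose_apply,
    Rm_apply]
  simp

theorem toMQ_map (T : Matrix (Fin 3) (Fin 3) E) :
    (toMQ T : MQ E a b).map (qmap σ) = toMQ (T.map σ) := by
  apply Matrix.ext
  intro i j
  exact H64.qmap_coe σ _

theorem toMQ_conj (T : Matrix (Fin 3) (Fin 3) E) : (toMQ T : MQ E a b)ᴴ = toMQ Tᵀ := by
  apply Matrix.ext
  intro i j
  exact H64.star_coe' _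

theorem toMQ_mul' (S T : Matrix (Fin 3) (Fin 3) E) :
    (toMQ (S * T) : MQ E a b) = toMQ S * toMQ T := E6I.toMQ_mul S T

theorem toMQ_add (S T : Matrix (Fin 3) (Fin 3) E) :
    (toMQ (S + T) : MQ E a b) = toMQ S + toMQ T := by
  apply Matrix.ext
  intro i j
  exact map_add (algebraMap E (Qt (up E a) (up E b))) _ _

theorem toMQ_smul (t : E) (T : Matrix (Fin 3) (Fin 3) E) :
    (toMQ (t • T) : MQ E a b) = t • toMQ T := by
  apply Matrix.ext
  intro i j
  change algebraMap E (Qt (up E a) (up E b)) (t * T i j) = t • algebraMap E _ (T i j)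
  rw [map_mul, Algebra.smul_def]

theorem toMQ_inj {S T : Matrix (Fin 3) (Fin 3) E} (h : (toMQ S : MQ E a b) = toMQ T) :
    S = T := by
  rw [← Rm_toMQ (a := a) (b := b) S, h, Rm_toMQ]

/-- The scalar matrix of a quaternion. -/
abbrev scw (E : Type) [Field E] [Algebra k E] {a b : kˣ} (w : Qt a b) : MQ E a b := E6I.sc E w

theorem scw_mul_apply (w : Qt a b) (X : MQ E a b) (i j : Fin 3) :
    (scw E w * X) i j = qup E w * X i j := by
  rw [scw, E6I.sc, Matrix.diagonal_mul]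

theorem mul_scw_apply (w : Qt a b) (X : MQ E a b) (i j : Fin 3) :
    (X * scw E w) i j = X i j * qup E w := by
  rw [scw, E6I.sc, Matrix.mul_diagonal]

theorem scw_map (w : Qt a b) : (scw E w).map (qmap σ) = scw E w := by
  apply Matrix.ext
  intro i j
  rw [Matrix.map_apply, scw, E6I.sc]
  by_cases h : i = j
  · subst h
    rw [Matrix.diagonal_apply_eq, qmap_qup]
  · rw [Matrix.diagonal_apply_ne _ h, qmap_zero]

theorem star_pure {F : Type} [Field F] {a b : Fˣ} {x : Qt a b} (hx : x.re = 0) :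
    star x = -x := by
  apply QuaternionAlgebra.ext <;> simp [hx]

theorem re_qup0 {w : Qt a b} (hw : w.re = 0) : (qup E w).re = 0 := by
  change algebraMap k E w.re = 0
  rw [hw, map_zero]

theorem scw_conj {w : Qt a b} (hw : w.re = 0) : (scw E w)ᴴ = -scw E w := by
  have h : star (qup E w) = -qup E w := star_pure (re_qup0 hw)
  apply Matrix.ext
  intro i j
  rw [Matrix.conjTranspose_apply, Matrix.neg_apply, scw, E6I.sc]
  by_cases h' : i = j
  · subst h'
    rw [Matrix.diagonal_apply_eq, h]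
  · rw [Matrix.diagonal_apply_ne _ h', Matrix.diagonal_apply_ne _ (Ne.symm h'), star_zero,
      neg_zero]

theorem toMQ_scw (T : Matrix (Fin 3) (Fin 3) E) (w : Qt a b) :
    (toMQ T : MQ E a b) * scw E w = scw E w * toMQ T := by
  apply Matrix.ext
  intro i j
  rw [scw_mul_apply, mul_scw_apply, toMQ_apply, QuaternionAlgebra.coe_commutes]

end re

end Vale.Agent.P011.E6W.H684
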