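import Vale.Agent.P011.E6W.H684.P1b

/-!
Block E6W (B1): the matrix `η = S₀ σ(Q)ᴴ Γ Q` of the hermitian form in the coordinates of a frame,
continued.
-/

open Matrix Polynomial

namespace Vale.Agent.P011.E6W.H684

open Vale.Agent.P011.MPQ hiding mat
open Vale.Agent.P011.D4 Vale.Agent.P011.D4.Oct Vale.Agent.P011.E6
open Vale.Agent.P011.E6.Alb
open Vale.Agent.P011.E6I (MQ toMQ toMQ_apply Mp S0 S1 S2 FixK S0_transpose S1_transpose
  S2_transpose)
open Vale.Agent.P011.E6I.Fx (FixL MpL det_S0 mul_S0 eq_of_comm)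
open Vale.Agent.P011.E6O (InD um)
open Vale.Agent.P011.E6W.H183 (adjM Rel WH map_add_qmap map_smul_qmap map_one_qmap conj_smul
  map_map_qmap map_comm_qmap um_map dg_map um_dgi)

/-- The centralizer of a pure quaternion. -/
theorem eq_of_comm_pure {F : Type} [Field F] (h2 : (2 : F) ≠ 0) {a b : Fˣ} {w : Qt a b} {u : F}
    (hw : w.re = 0) (hu : u ≠ 0) (hww : w * w = u • (1 : Qt a b)) {x : Qt a b}
    (h : x * w = w * x) : x = x.re • (1 : Qt a b) + ((x * w).re * u⁻¹) • w := by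
  obtain ⟨r, hr⟩ : ∃ r, r = x.re := ⟨_, rfl⟩
  have hsx : star (x - r • (1 : Qt a b)) = -(x - r • (1 : Qt a b)) := by
    apply star_pure
    simp [hr]
  have hsw : star w = -w := star_pure hw
  have h1 : star ((x - r • (1 : Qt a b)) * w) = (x - r • (1 : Qt a b)) * w := by
    rw [star_mul, hsx, hsw, neg_mul_neg, mul_sub, sub_mul, h, mul_smul_comm, smul_mul_assoc,
      one_mul, mul_one]
  have h3 := H64.eq_coe_of_star_eq h2 h1
  have h4 : ((x - r • (1 : Qt a b)) * w).re = (x * w).re := by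
    rw [sub_mul, smul_mul_assoc, one_mul, QuaternionAlgebra.re_sub, QuaternionAlgebra.re_smul, hw,
      smul_zero, sub_zero]
  rw [h4] at h3
  have h5 : u • (x - r • (1 : Qt a b)) = (x * w).re • w := by
    have h6 := congrArg (fun y => y * w) h3
    beta_reduce at h6
    rw [mul_assoc, hww, mul_smul_comm, mul_one, QuaternionAlgebra.coe_mul_eq_smul] at h6
    exact h6
  have h7 : x - r • (1 : Qt a b) = ((x * w).re * u⁻¹) • w := by
    rw [mul_comm, ← smul_smul, ← h5, smul_smul, inv_mul_cancel₀ hu, one_smul]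
  rw [← h7, ← hr]
  abel

section eta

variable {k E : Type} [Field k] [Field E] [Algebra k E] {ρ σ : E ≃ₐ[k] E} {lam : Eˣ}
  {g : Fin 3 → Eˣ} {s : E} {a b : kˣ}

/-- The hermitian matrix. -/
def HQ (σ : E ≃ₐ[k] E) (g : Fin 3 → Eˣ) (Q : MQ E a b) : MQ E a b :=
  (Q.map (qmap σ))ᴴ * dg (up E a) (up E b) g * Q

theorem dg_adjM (c : MQ E a b) : dg (up E a) (up E b) g * adjM σ g c =
    (c.map (qmap σ))ᴴ * dg (up E a) (up E b) g := by
  rw [adjM, Matrix.mul_assoc, ← Matrix.mul_assoc (dg (up E a) (up E b) g), H64.dg_mul_dgi,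
    Matrix.one_mul]

theorem HQ_rel {c Q y : MQ E a b} (h : c * Q = Q * y) :
    (y.map (qmap σ))ᴴ * HQ σ g Q =
      (Q.map (qmap σ))ᴴ * dg (up E a) (up E b) g * (adjM σ g c * Q) := by
  have h1 : (y.map (qmap σ))ᴴ * (Q.map (qmap σ))ᴴ = (Q.map (qmap σ))ᴴ * (c.map (qmap σ))ᴴ := by
    rw [← Matrix.conjTranspose_mul, ← Matrix.conjTranspose_mul, ← H64.map_mul_qmap,
      ← H64.map_mul_qmap, h]
  calc (y.map (qmap σ))ᴴ * HQ σ g Q = ((y.map (qmap σ))ᴴ * (Q.map (qmap σ))ᴴ) *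
        dg (up E a) (up E b) g * Q := by rw [HQ]; simp only [Matrix.mul_assoc]
    _ = (Q.map (qmap σ))ᴴ * ((c.map (qmap σ))ᴴ * dg (up E a) (up E b) g) * Q := by
        rw [h1]; simp only [Matrix.mul_assoc]
    _ = _ := by rw [← dg_adjM]; simp only [Matrix.mul_assoc]

theorem HQ_sym (hσ : ∀ x, σ (σ x) = x) (hσg : ∀ i, σ (g i) = g i) (Q : MQ E a b) :
    ((HQ σ g Q).map (qmap σ))ᴴ = HQ σ g Q := by
  rw [HQ, H64.map_mul_qmap, H64.map_mul_qmap, Matrix.conjTranspose_mul, Matrix.conjTranspose_mul,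
    dg_map hσg, H64.dg_conjTranspose, H64.map_qmap_conjTranspose,
    Matrix.conjTranspose_conjTranspose, map_map_qmap hσ, Matrix.mul_assoc]

theorem HQ_rho (R : Rel ρ σ lam g s) {Q v : MQ E a b}
    (h : (toMQ (um lam) : MQ E a b) * Q.map (qmap ρ) = Q * v) :
    (v.map (qmap σ))ᴴ * HQ σ g Q * v = s • (HQ σ g Q).map (qmap ρ) := by
  obtain ⟨U, hU⟩ : ∃ U, U = (toMQ (um lam) : MQ E a b) := ⟨_, rfl⟩
  obtain ⟨V, hV⟩ : ∃ V, V = (U.map (qmap σ))ᴴ := ⟨_, rfl⟩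
  have hUW : (toMQ (E6O.wm lam) : MQ E a b) * U = 1 := by rw [hU, E6O.wq_mul_uq]
  have h1 : (v.map (qmap σ))ᴴ * (Q.map (qmap σ))ᴴ = ((Q.map (qmap ρ)).map (qmap σ))ᴴ * V := by
    rw [hV, ← Matrix.conjTranspose_mul, ← Matrix.conjTranspose_mul, ← H64.map_mul_qmap,
      ← H64.map_mul_qmap, ← h, hU]
  have key := um_dgi (a := a) (b := b) R
  rw [← hU, ← hV] at key
  have h3 : (dg (up E a) (up E b) g).map (qmap ρ) *
      (H64.dgi (up E a) (up E b) g).map (qmap ρ) = 1 := by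
    rw [← H64.map_mul_qmap, H64.dg_mul_dgi, map_one_qmap]
  have h4 : V * dg (up E a) (up E b) g * U = s • (dg (up E a) (up E b) g).map (qmap ρ) := by
    have e1 : (H64.dgi (up E a) (up E b) g).map (qmap ρ) * V =
        s • (toMQ (E6O.wm lam) * H64.dgi (up E a) (up E b) g) := by
      calc _ = (toMQ (E6O.wm lam) * U) * ((H64.dgi (up E a) (up E b) g).map (qmap ρ) * V) := by
            rw [hUW, Matrix.one_mul]
        _ = _ := by rw [Matrix.mul_assoc, key, Matrix.mul_smul]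
    have e2 : V = s • ((dg (up E a) (up E b) g).map (qmap ρ) *
        (toMQ (E6O.wm lam) * H64.dgi (up E a) (up E b) g)) := by
      calc V = ((dg (up E a) (up E b) g).map (qmap ρ) *
            (H64.dgi (up E a) (up E b) g).map (qmap ρ)) * V := by rw [h3, Matrix.one_mul]
        _ = _ := by rw [Matrix.mul_assoc, e1, Matrix.mul_smul]
    calc _ = s • ((dg (up E a) (up E b) g).map (qmap ρ) * (toMQ (E6O.wm lam) *
          ((H64.dgi (up E a) (up E b) g * dg (up E a) (up E b) g) * U))) := by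
          conv_lhs => rw [e2]
          simp only [Matrix.smul_mul, Matrix.mul_assoc]
      _ = _ := by rw [H64.dgi_mul_dg, Matrix.one_mul, hUW, Matrix.mul_one]
  calc (v.map (qmap σ))ᴴ * HQ σ g Q * v = ((v.map (qmap σ))ᴴ * (Q.map (qmap σ))ᴴ) *
        dg (up E a) (up E b) g * (Q * v) := by rw [HQ]; simp only [Matrix.mul_assoc]
    _ = ((Q.map (qmap ρ)).map (qmap σ))ᴴ * (V * dg (up E a) (up E b) g * U) * Q.map (qmap ρ) := by
        rw [h1, ← h, ← hU]; simp only [Matrix.mul_assoc]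
    _ = _ := by
        rw [h4, HQ, H64.map_mul_qmap, H64.map_mul_qmap, Matrix.mul_smul, Matrix.smul_mul,
          H64.map_qmap_conjTranspose, map_comm_qmap R.comm]

/-- The matrix `η`. -/
def etaQ (σ : E ≃ₐ[k] E) (g : Fin 3 → Eˣ) (p1 p2 : k) (Q : MQ E a b) : MQ E a b :=
  toMQ (S0 (algebraMap k E p1) (algebraMap k E p2)) * HQ σ g Q

variable {p0 p1 p2 : k}

theorem MpL_σ : (MpL E p0 p1 p2).map σ = MpL E p0 p1 p2 := by
  ext i j
  fin_cases i <;> fin_cases j <;> simp [Mp]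

theorem S0_σ : (S0 (algebraMap k E p1) (algebraMap k E p2)).map σ =
    S0 (algebraMap k E p1) (algebraMap k E p2) := by
  ext i j
  fin_cases i <;> fin_cases j <;> simp [S0]

theorem map_mul_σ (S T : Matrix (Fin 3) (Fin 3) E) : (S * T).map σ = S.map σ * T.map σ :=
  Matrix.map_mul (f := (σ : E →+* E))

theorem comm_σ {A : Matrix (Fin 3) (Fin 3) E} (hA : A * MpL E p0 p1 p2 = MpL E p0 p1 p2 * A) :
    A.map σ * MpL E p0 p1 p2 = MpL E p0 p1 p2 * A.map σ := by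
  have h := congrArg (fun T : Matrix (Fin 3) (Fin 3) E => T.map σ) hA
  beta_reduce at h
  rwa [map_mul_σ, map_mul_σ, MpL_σ] at h

theorem eta_Mp {z Q : MQ E a b} (hz : adjM σ g z = z)
    (hzQ : z * Q = Q * toMQ (MpL E p0 p1 p2)) :
    etaQ σ g p1 p2 Q * toMQ (MpL E p0 p1 p2) = toMQ (MpL E p0 p1 p2) * etaQ σ g p1 p2 Q := by
  have h1 := HQ_rel (σ := σ) (g := g) hzQ
  rw [hz, toMQ_map, MpL_σ, toMQ_conj] at h1
  have h2 : HQ σ g Q * toMQ (MpL E p0 p1 p2) = toMQ (MpL E p0 p1 p2)ᵀ * HQ σ g Q := by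
    rw [h1, hzQ, HQ]
    simp only [Matrix.mul_assoc]
  rw [etaQ, Matrix.mul_assoc, h2, ← Matrix.mul_assoc, ← Matrix.mul_assoc, ← toMQ_mul', ← toMQ_mul',
    comm_S0 rfl]

theorem eta_w {w' Q : MQ E a b} {w : Qt a b} (hw : w.re = 0) (hw' : adjM σ g w' = -w')
    (hwQ : w' * Q = Q * scw E w) : etaQ σ g p1 p2 Q * scw E w = scw E w * etaQ σ g p1 p2 Q := by
  have h1 := HQ_rel (σ := σ) (g := g) hwQ
  rw [hw', scw_map, scw_conj hw] at h1
  have h2 : HQ σ g Q * scw E w = scw E w * HQ σ g Q := by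
    rw [Matrix.neg_mul, Matrix.neg_mul, hwQ, Matrix.mul_neg, neg_inj] at h1
    rw [h1, HQ]
    simp only [Matrix.mul_assoc]
  rw [etaQ, Matrix.mul_assoc, h2, ← Matrix.mul_assoc, toMQ_scw, Matrix.mul_assoc]

theorem eta_sym (hσ : ∀ x, σ (σ x) = x) (hσg : ∀ i, σ (g i) = g i) (Q : MQ E a b) :
    toMQ (S0 (algebraMap k E p1) (algebraMap k E p2)) * ((etaQ σ g p1 p2 Q).map (qmap σ))ᴴ =
      etaQ σ g p1 p2 Q * toMQ (S0 (algebraMap k E p1) (algebraMap k E p2)) := by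
  rw [etaQ, H64.map_mul_qmap, Matrix.conjTranspose_mul, HQ_sym hσ hσg, toMQ_map, S0_σ, toMQ_conj,
    S0_transpose, Matrix.mul_assoc]

theorem toMQ_comm_eta {Q : MQ E a b}
    (hη : etaQ σ g p1 p2 Q * toMQ (MpL E p0 p1 p2) = toMQ (MpL E p0 p1 p2) * etaQ σ g p1 p2 Q)
    {v : Matrix (Fin 3) (Fin 3) E} (hv : v * MpL E p0 p1 p2 = MpL E p0 p1 p2 * v) :
    etaQ σ g p1 p2 Q * toMQ v = toMQ v * etaQ σ g p1 p2 Q := by
  have h1 := eq_of_comm hv
  rw [h1]
  have h2 : (toMQ (1 : Matrix (Fin 3) (Fin 3) E) : MQ E a b) = 1 := E6I.toMQ_one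
  simp only [toMQ_add, toMQ_smul, toMQ_mul', h2, Matrix.mul_add, Matrix.add_mul, Matrix.mul_smul,
    Matrix.smul_mul, Matrix.mul_one, Matrix.one_mul]
  rw [hη, ← Matrix.mul_assoc, hη, Matrix.mul_assoc, hη, Matrix.mul_assoc]

theorem eta_rho (R : Rel ρ σ lam g s) {Q : MQ E a b}
    (hη : etaQ σ g p1 p2 Q * toMQ (MpL E p0 p1 p2) = toMQ (MpL E p0 p1 p2) * etaQ σ g p1 p2 Q)
    {v : Matrix (Fin 3) (Fin 3) E} (hv : v * MpL E p0 p1 p2 = MpL E p0 p1 p2 * v)
    (h : (toMQ (um lam) : MQ E a b) * Q.map (qmap ρ) = Q * toMQ v) :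
    toMQ (v.map σ * v) * etaQ σ g p1 p2 Q = s • (etaQ σ g p1 p2 Q).map (qmap ρ) := by
  have h1 := HQ_rho R h
  rw [toMQ_map, toMQ_conj] at h1
  have h2 : (S0 (algebraMap k E p1) (algebraMap k E p2)).map ρ =
    S0 (algebraMap k E p1) (algebraMap k E p2) := S0_σ
  have h3 : etaQ σ g p1 p2 Q * toMQ v = toMQ v * etaQ σ g p1 p2 Q := toMQ_comm_eta hη hv
  conv_rhs => rw [etaQ, H64.map_mul_qmap, toMQ_map, h2, ← Matrix.mul_smul, ← h1]
  rw [toMQ_mul', Matrix.mul_assoc, ← h3, etaQ, ← Matrix.mul_assoc, ← Matrix.mul_assoc,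
    ← Matrix.mul_assoc, ← Matrix.mul_assoc, ← toMQ_mul', ← toMQ_mul', comm_S0 (comm_σ hv)]

/-- The two coordinates of a matrix which commutes with `w`. -/
theorem eq_coord (h2 : (2 : E) ≠ 0) {w : Qt a b} {u : kˣ} (hw : w.re = 0)
    (hww : w * w = (u : k) • (1 : Qt a b)) {X : MQ E a b} (hX : X * scw E w = scw E w * X) :
    X = toMQ (Rm X) + toMQ ((algebraMap k E (u : k))⁻¹ • Rm (X * scw E w)) * scw E w := by
  have hu : algebraMap k E (u : k) ≠ 0 := (_root_.map_ne_zero _).mpr u.ne_zero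
  have hwwE : qup E w * qup E w = algebraMap k E (u : k) • (1 : Qt (up E a) (up E b)) := by
    rw [← qup_mul, hww, qup_smul, qup_one]
  apply Matrix.ext
  intro i j
  have h3 : X i j * qup E w = qup E w * X i j := by
    rw [← mul_scw_apply, ← scw_mul_apply, hX]
  have h4 := eq_of_comm_pure h2 (re_qup0 hw) hu hwwE h3
  rw [Matrix.add_apply, mul_scw_apply, toMQ_apply, toMQ_apply, Rm_apply, Matrix.smul_apply,
    Rm_apply, mul_scw_apply, smul_eq_mul, QuaternionAlgebra.coe_mul_eq_smul,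
    mul_comm (algebraMap k E (u : k))⁻¹]
  conv_lhs => rw [h4]
  congr 1
  apply QuaternionAlgebra.ext <;> simp

end eta

end Vale.Agent.P011.E6W.H684
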