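import Vale.Agent.P011.E6W.H684.P1c

/-!
Block E6W (B1): the descent of the matrix `η` to the matrix `φ = A + th w B` over `k`.
-/

open Matrix Polynomial

namespace Vale.Agent.P011.E6W.H684

open Vale.Agent.P011.MPQ hiding mat
open Vale.Agent.P011.D4 Vale.Agent.P011.D4.Oct Vale.Agent.P011.E6
open Vale.Agent.P011.E6.Alb
open Vale.Agent.P011.E6I (MQ toMQ toMQ_apply Mp S0 S1 S2 FixK S0_transpose S1_transpose
  S2_transpose)
open Vale.Agent.P011.E6I.Fx (FixL MpL det_S0 mul_S0 eq_of_comm)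
open Vale.Agent.P011.E6O (InD um)
open Vale.Agent.P011.E6W.H183 (adjM Rel WH map_add_qmap map_smul_qmap map_one_qmap conj_smul
  map_map_qmap map_comm_qmap um_map dg_map um_dgi exists_kW)

section phi

variable {k E : Type} [Field k] [Field E] [Algebra k E] {ρ σ : E ≃ₐ[k] E} {lam : Eˣ}
  {g : Fin 3 → Eˣ} {s th : E} {kap a b c : kˣ}

/-- The matrix `A + th w B`. -/
def phE (th : E) (w : Qt a b) (A B : Matrix (Fin 3) (Fin 3) k) : MQ E a b :=
  Matrix.of fun i j => algebraMap E (Qt (up E a) (up E b)) (algebraMap k E (A i j)) +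
    (th * algebraMap k E (B i j)) • qup E w

theorem phE_eq (th : E) (w : Qt a b) (A B : Matrix (Fin 3) (Fin 3) k) :
    phE th w A B = toMQ (A.map (algebraMap k E)) +
      toMQ (th • B.map (algebraMap k E)) * scw E w := by
  apply Matrix.ext
  intro i j
  rw [Matrix.add_apply, mul_scw_apply, toMQ_apply, toMQ_apply, QuaternionAlgebra.coe_mul_eq_smul]
  rfl

theorem comm_of_map {p0 p1 p2 : k} {A : Matrix (Fin 3) (Fin 3) k}
    (h : A.map (algebraMap k E) * MpL E p0 p1 p2 = MpL E p0 p1 p2 * A.map (algebraMap k E)) :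
    Mp p0 p1 p2 * A = A * Mp p0 p1 p2 := by
  rw [Mp_map, ← Matrix.map_mul, ← Matrix.map_mul] at h
  exact (Matrix.map_injective (algebraMap k E).injective h).symm

theorem map_of_comm {p0 p1 p2 : k} {A : Matrix (Fin 3) (Fin 3) k}
    (h : Mp p0 p1 p2 * A = A * Mp p0 p1 p2) :
    A.map (algebraMap k E) * MpL E p0 p1 p2 = MpL E p0 p1 p2 * A.map (algebraMap k E) := by
  rw [Mp_map, ← Matrix.map_mul, ← Matrix.map_mul, h]

theorem map_smul_σ (t : E) (T : Matrix (Fin 3) (Fin 3) E) :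
    (t • T).map σ = σ t • T.map σ := by
  ext i j
  exact map_mul σ _ _

variable [NumberField k] [NumberField E]

/-- **The descent of `η`.** -/
theorem exists_phi (W : WH ρ σ lam g th s kap a b c) {p0 p1 p2 : k}
    (hroot : ∀ t : E, t ^ 3 + algebraMap k E p2 * t ^ 2 + algebraMap k E p1 * t +
      algebraMap k E p0 ≠ 0)
    {w : Qt a b} {u : kˣ} (hw : w.re = 0) (hww : w * w = (u : k) • (1 : Qt a b))
    {Q : (MQ E a b)ˣ} {z w' : MQ E a b} (hz : adjM σ g z = z)
    (hzQ : z * (Q : MQ E a b) = (Q : MQ E a b) * toMQ (MpL E p0 p1 p2)) (hw' : adjM σ g w' = -w')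
    (hwQ : w' * (Q : MQ E a b) = (Q : MQ E a b) * scw E w) {v : Matrix (Fin 3) (Fin 3) E}
    (hv : v * MpL E p0 p1 p2 = MpL E p0 p1 p2 * v)
    (h : (toMQ (um lam) : MQ E a b) * (Q : MQ E a b).map (qmap ρ) = (Q : MQ E a b) * toMQ v) :
    ∃ (r : Matrix (Fin 3) (Fin 3) E) (A B : Matrix (Fin 3) (Fin 3) k),
      r * MpL E p0 p1 p2 = MpL E p0 p1 p2 * r ∧ r.map σ = r ∧ r.det ≠ 0 ∧
      Mp p0 p1 p2 * A = A * Mp p0 p1 p2 ∧ Mp p0 p1 p2 * B = B * Mp p0 p1 p2 ∧
      etaQ σ g p1 p2 (Q : MQ E a b) = toMQ r * phE th w A B := by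
  have hσ := W.rel.σ2
  have hs0 := W.rel.s_ne
  have hth := W.th_ne
  have h2 : (2 : E) ≠ 0 := two_ne_zero
  have hu : algebraMap k E (u : k) ≠ 0 := (_root_.map_ne_zero _).mpr u.ne_zero
  obtain ⟨η, hη⟩ : ∃ η, η = etaQ σ g p1 p2 (Q : MQ E a b) := ⟨_, rfl⟩
  have e1 : η * toMQ (MpL E p0 p1 p2) = toMQ (MpL E p0 p1 p2) * η := by
    rw [hη]; exact eta_Mp hz hzQ
  have e2 : η * scw E w = scw E w * η := by rw [hη]; exact eta_w hw hw' hwQ
  have e3 := eta_sym (p1 := p1) (p2 := p2) hσ W.rel.σg (Q : MQ E a b)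
  have e4 := eta_rho W.rel (Q := (Q : MQ E a b)) (by rw [← hη]; exact e1) hv h
  rw [← hη] at e3 e4
  -- the coordinates
  obtain ⟨A, hA⟩ : ∃ A, A = Rm η := ⟨_, rfl⟩
  obtain ⟨B, hB⟩ : ∃ B, B = (algebraMap k E (u : k))⁻¹ • Rm (η * scw E w) := ⟨_, rfl⟩
  have e5 : η = toMQ A + toMQ B * scw E w := by
    rw [hA, hB]
    exact eq_coord h2 hw hww e2
  have hAM : A * MpL E p0 p1 p2 = MpL E p0 p1 p2 * A := by
    rw [hA, ← Rm_mul_toMQ, e1, Rm_toMQ_mul]
  have hBM : B * MpL E p0 p1 p2 = MpL E p0 p1 p2 * B := by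
    rw [hB, Matrix.smul_mul, Matrix.mul_smul, ← Rm_mul_toMQ, ← Rm_toMQ_mul, Matrix.mul_assoc,
      ← toMQ_scw, ← Matrix.mul_assoc, e1, Matrix.mul_assoc]
  -- the action of `σ`
  have hS0 : (S0 (algebraMap k E p1) (algebraMap k E p2)).det ≠ 0 := detS0_ne
  have hS0c : ∀ {C D : Matrix (Fin 3) (Fin 3) E},
      C * S0 (algebraMap k E p1) (algebraMap k E p2) =
        D * S0 (algebraMap k E p1) (algebraMap k E p2) → C = D := by
    intro C D h
    have h1 := congrArg (fun T => T * (S0 (algebraMap k E p1) (algebraMap k E p2))⁻¹) h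
    beta_reduce at h1
    rwa [Matrix.mul_nonsing_inv_cancel_right _ _ (isUnit_iff_ne_zero.mpr hS0),
      Matrix.mul_nonsing_inv_cancel_right _ _ (isUnit_iff_ne_zero.mpr hS0)] at h1
  have hAσ : A.map σ = A := by
    apply hS0c
    rw [← comm_S0 (comm_σ hAM)]
    have h1 := congrArg Rm e3
    rwa [Rm_toMQ_mul, Rm_mul_toMQ, Rm_conj, Rm_map, ← hA] at h1
  have hBσ : B.map σ = -B := by
    have hBM' : (Rm (η * scw E w)) * MpL E p0 p1 p2 = MpL E p0 p1 p2 * Rm (η * scw E w) := by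
      rw [← Rm_mul_toMQ, ← Rm_toMQ_mul, Matrix.mul_assoc, ← toMQ_scw, ← Matrix.mul_assoc, e1,
        Matrix.mul_assoc]
    have h1 : (Rm (η * scw E w)).map σ = -Rm (η * scw E w) := by
      apply hS0c
      rw [← comm_S0 (comm_σ hBM'), ← Rm_map, ← Rm_conj, ← Rm_toMQ_mul, Matrix.neg_mul,
        ← Rm_mul_toMQ, H64.map_mul_qmap, scw_map, Matrix.conjTranspose_mul, scw_conj hw,
        Matrix.neg_mul, Matrix.mul_neg]
      have h3 : toMQ (S0 (algebraMap k E p1) (algebraMap k E p2)) * (scw E w * (η.map (qmap σ))ᴴ) =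
          η * scw E w * toMQ (S0 (algebraMap k E p1) (algebraMap k E p2)) := by
        rw [← Matrix.mul_assoc, toMQ_scw, Matrix.mul_assoc, e3, ← Matrix.mul_assoc, ← e2,
          Matrix.mul_assoc]
      rw [h3]
      rfl
    rw [hB, map_smul_σ, h1, map_inv₀, AlgEquiv.commutes, smul_neg]
  -- the action of `ρ`
  obtain ⟨q, hq⟩ : ∃ q, q = v.map σ * v := ⟨_, rfl⟩
  rw [← hq] at e4
  have hAρ : q * A = s • A.map ρ := by
    have h1 := congrArg Rm e4
    rwa [Rm_toMQ_mul, Rm_smul, Rm_map, ← hA] at h1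
  have hBρ : q * B = s • B.map ρ := by
    have h1 := congrArg (fun X => Rm (X * scw E w)) e4
    beta_reduce at h1
    rw [Matrix.mul_assoc, Rm_toMQ_mul, Matrix.smul_mul, Rm_smul] at h1
    have h3 : η.map (qmap ρ) * scw E w = (η * scw E w).map (qmap ρ) := by
      rw [H64.map_mul_qmap, scw_map]
    rw [h3, Rm_map] at h1
    rw [hB, Matrix.mul_smul, h1, map_smul_σ, map_inv₀, AlgEquiv.commutes, smul_comm]
  by_cases hA0 : A = 0
  · -- the first coordinate is zero
    have hB0 : B ≠ 0 := by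
      intro hB0
      have h1 : η = 0 := by
        rw [e5, hA0, hB0]
        apply Matrix.ext
        intro i j
        rw [Matrix.add_apply, mul_scw_apply, toMQ_apply]
        change algebraMap E (Qt (up E a) (up E b)) 0 + algebraMap E _ 0 * _ = 0
        rw [map_zero, zero_mul, add_zero]
      rw [hη, etaQ, HQ] at h1
      have h3 : ∃ S : (MQ E a b)ˣ, (S : MQ E a b) =
          toMQ (S0 (algebraMap k E p1) (algebraMap k E p2)) :=
        ⟨H7.smU (up E a) (up E b) _ hS0, rfl⟩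
      obtain ⟨S, hS⟩ := h3
      obtain ⟨T, hT⟩ : ∃ T : (MQ E a b)ˣ, (T : MQ E a b) = ((Q : MQ E a b).map (qmap σ))ᴴ :=
        ⟨⟨((H64.umap σ Q : (MQ E a b)ˣ) : MQ E a b)ᴴ,
          (((H64.umap σ Q)⁻¹ : (MQ E a b)ˣ) : MQ E a b)ᴴ, by
            rw [← Matrix.conjTranspose_mul, Units.inv_mul, Matrix.conjTranspose_one], by
            rw [← Matrix.conjTranspose_mul, Units.mul_inv, Matrix.conjTranspose_one]⟩, rfl⟩
      have h4 : ((S * (T * dgU a b g * Q) : (MQ E a b)ˣ) : MQ E a b) = 0 := by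
        rw [Units.val_mul, Units.val_mul, Units.val_mul, hS, hT]
        exact h1
      exact Units.ne_zero _ h4
    refine ⟨th⁻¹ • B, 0, 1, ?_, ?_, ?_, by simp, by simp, ?_⟩
    · rw [Matrix.smul_mul, Matrix.mul_smul, hBM]
    · rw [map_smul_σ, hBσ, map_inv₀, W.σth, inv_neg, neg_smul_neg]
    · rw [Matrix.det_smul]
      exact mul_ne_zero (pow_ne_zero _ (inv_ne_zero hth)) (det_ne_of_comm hroot hBM hB0)
    · have e0 : (toMQ (0 : Matrix (Fin 3) (Fin 3) E) : MQ E a b) = 0 := by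
        apply Matrix.ext
        intro i j
        exact map_zero (algebraMap E (Qt (up E a) (up E b)))
      have e0' : (0 : Matrix (Fin 3) (Fin 3) k).map (algebraMap k E) = 0 := by
        ext i j
        simp
      have e1' : (1 : Matrix (Fin 3) (Fin 3) k).map (algebraMap k E) = 1 :=
        Matrix.map_one _ (map_zero _) (map_one _)
      rw [← hη, e5, hA0, phE_eq, e0', e1', e0, zero_add, zero_add, ← Matrix.mul_assoc,
        ← toMQ_mul', Matrix.smul_mul, Matrix.mul_smul, smul_smul, inv_mul_cancel₀ hth, one_smul,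
        Matrix.mul_one]
  · -- the first coordinate is not zero
    have hd := det_ne_of_comm hroot hAM hA0
    have hdu := isUnit_iff_ne_zero.mpr hd
    obtain ⟨C, hC⟩ : ∃ C, C = A⁻¹ * B := ⟨_, rfl⟩
    have hAC : A * C = B := by rw [hC, Matrix.mul_nonsing_inv_cancel_left _ _ hdu]
    have hCM : C * MpL E p0 p1 p2 = MpL E p0 p1 p2 * C := by
      rw [hC, Matrix.mul_assoc, hBM, ← Matrix.mul_assoc, inv_comm hAM hd, Matrix.mul_assoc]
    have hCρ : C.map ρ = C := by
      have h1 : A.map ρ * C.map ρ = A.map ρ * C := by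
        have h3 : s • (A.map ρ * C.map ρ) = s • (A.map ρ * C) := by
          rw [← map_mul_σ, hAC, ← hBρ, ← hAC, ← Matrix.mul_assoc, hAρ, Matrix.smul_mul]
        exact smul_right_injective _ hs0 h3
      have h4 : (A.map ρ).det ≠ 0 := by
        have h5 : (A.map ρ).det = ρ A.det := (RingHom.map_det (ρ : E →+* E) A).symm
        rw [h5]
        exact (_root_.map_ne_zero ρ).mpr hd
      have h6 := congrArg (fun T => (A.map ρ)⁻¹ * T) h1
      beta_reduce at h6
      rwa [Matrix.nonsing_inv_mul_cancel_left _ _ (isUnit_iff_ne_zero.mpr h4),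
        Matrix.nonsing_inv_mul_cancel_left _ _ (isUnit_iff_ne_zero.mpr h4)] at h6
    have hCσ : C.map σ = -C := by
      have h1 : A * C.map σ = A * (-C) := by
        conv_lhs => rw [← hAσ]
        rw [← map_mul_σ, hAC, hBσ, Matrix.mul_neg, hAC]
      have h6 := congrArg (fun T => A⁻¹ * T) h1
      beta_reduce at h6
      rwa [Matrix.nonsing_inv_mul_cancel_left _ _ hdu,
        Matrix.nonsing_inv_mul_cancel_left _ _ hdu] at h6
    have hent : ∀ i j, ∃ t : k, algebraMap k E t = th⁻¹ * C i j := by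
      intro i j
      apply exists_kW W
      · have h1 := congrFun (congrFun hCρ i) j
        rw [Matrix.map_apply] at h1
        rw [map_mul, map_inv₀, W.ρth, h1]
      · have h1 := congrFun (congrFun hCσ i) j
        rw [Matrix.map_apply, Matrix.neg_apply] at h1
        rw [map_mul, map_inv₀, W.σth, h1, inv_neg, neg_mul_neg]
    choose B0 hB0 using hent
    have hB0' : (Matrix.of B0).map (algebraMap k E) = th⁻¹ • C := by
      ext i j
      exact hB0 i j
    refine ⟨A, 1, Matrix.of B0, hAM, hAσ, hd, by simp, ?_, ?_⟩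
    · apply comm_of_map (E := E)
      rw [hB0', Matrix.smul_mul, Matrix.mul_smul, hCM]
    · have e1' : (1 : Matrix (Fin 3) (Fin 3) k).map (algebraMap k E) = 1 :=
        Matrix.map_one _ (map_zero _) (map_one _)
      have e1'' : (toMQ (1 : Matrix (Fin 3) (Fin 3) E) : MQ E a b) = 1 := E6I.toMQ_one
      rw [← hη, e5, phE_eq, e1', e1'', hB0', smul_smul, mul_inv_cancel₀ hth, one_smul,
        Matrix.mul_add, Matrix.mul_one, ← Matrix.mul_assoc, ← toMQ_mul', hAC]

end phi

end Vale.Agent.P011.E6W.H684
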