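import Vale.Agent.P011.E6W.H684.P1e

/-!
Block E6W (B1): the coordinates attached to a frame.
-/

open Matrix Polynomial

set_option linter.unusedSectionVars false

namespace Vale.Agent.P011.E6W.H684

open Vale.Agent.P011.MPQ hiding mat
open Vale.Agent.P011.D4 Vale.Agent.P011.D4.Oct Vale.Agent.P011.E6
open Vale.Agent.P011.E6.Alb
open Vale.Agent.P011.E6I (MQ toMQ toMQ_apply Mp S0 S1 S2 FixK S0_transpose S1_transpose
  S2_transpose cj amap_cj cj_inv)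
open Vale.Agent.P011.E6I.Fx (FixL MpL det_S0 mul_S0 eq_of_comm vP vP_comm det_vP P_mul_vP comm_vP)
open Vale.Agent.P011.E6O (KK mkK KK_fix KK_ext InD InD0 um her)
open Vale.Agent.P011.E6W.H183 (adjM Rel WH rhoK unK)
open Vale.Agent.P011.E6W.H7 (smU cj_eq_act)

section fd

variable {k E : Type} [Field k] [NumberField k] [Field E] [NumberField E] [Algebra k E]
  {ρ σ : E ≃ₐ[k] E} {lam : Eˣ} {g : Fin 3 → Eˣ} {th s : E} {kap a b c : kˣ}

/-- The coordinates attached to a frame. -/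
structure FD (_ : WH ρ σ lam g th s kap a b c) (w : Qt a b) (u : kˣ) (p0 p1 p2 : k)
    (z w' : MQ E a b) (m : (MQ E a b)ˣ) (z1 P : Matrix (Fin 3) (Fin 3) E) : Prop where
  /-- `w` is pure -/
  hw : w.re = 0
  /-- the square of `w` -/
  hww : w * w = (u : k) • (1 : Qt a b)
  /-- `z` is symmetric -/
  zs : adjM σ g z = z
  /-- `w'` is antisymmetric -/
  ws : adjM σ g w' = -w'
  /-- `m` belongs to `D ⊗ Q` -/
  mD : InD ρ lam (m : MQ E a b)
  /-- `m` carries `w'` to `w` -/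
  mw : (m : MQ E a b) * w' = scw E w * (m : MQ E a b)
  /-- `z1` belongs to `D` -/
  z1D : InD0 ρ lam z1
  /-- `m` carries `z` to `z1` -/
  mz : (m : MQ E a b) * z = toMQ z1 * (m : MQ E a b)
  /-- `P` is invertible -/
  hP : P.det ≠ 0
  /-- `P` carries the companion matrix to `z1` -/
  zP : z1 * P = P * MpL E p0 p1 p2
  /-- there is no root in `E` -/
  root : ∀ t : E, t ^ 3 + algebraMap k E p2 * t ^ 2 + algebraMap k E p1 * t +
    algebraMap k E p0 ≠ 0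

variable {W : WH ρ σ lam g th s kap a b c} {w : Qt a b} {u : kˣ} {p0 p1 p2 : k}
  {z w' : MQ E a b} {m : (MQ E a b)ˣ} {z1 P : Matrix (Fin 3) (Fin 3) E}

/-- The matrix `m⁻¹ P`. -/
noncomputable def FD.Q (H : FD W w u p0 p1 p2 z w' m z1 P) : (MQ E a b)ˣ :=
  m⁻¹ * smU (up E a) (up E b) P H.hP

variable (H : FD W w u p0 p1 p2 z w' m z1 P)

theorem FD.Q_val : (H.Q : MQ E a b) = ((m⁻¹ : (MQ E a b)ˣ) : MQ E a b) * toMQ P := rfl

theorem FD.zQ : z * (H.Q : MQ E a b) = (H.Q : MQ E a b) * toMQ (MpL E p0 p1 p2) := by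
  have h1 : z * ((m⁻¹ : (MQ E a b)ˣ) : MQ E a b) =
      ((m⁻¹ : (MQ E a b)ˣ) : MQ E a b) * toMQ z1 := by
    rw [← Units.mul_right_inj m, ← mul_assoc, ← mul_assoc, H.mz, mul_assoc, Units.mul_inv,
      mul_one, one_mul]
  rw [H.Q_val, ← mul_assoc, h1, mul_assoc, mul_assoc, ← toMQ_mul', H.zP, toMQ_mul']

theorem FD.wQ : w' * (H.Q : MQ E a b) = (H.Q : MQ E a b) * scw E w := by
  have h1 : w' * ((m⁻¹ : (MQ E a b)ˣ) : MQ E a b) =
      ((m⁻¹ : (MQ E a b)ˣ) : MQ E a b) * scw E w := by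
    rw [← Units.mul_right_inj m, ← mul_assoc, ← mul_assoc, H.mw, mul_assoc, Units.mul_inv,
      mul_one, one_mul]
  rw [H.Q_val, ← mul_assoc, h1, mul_assoc, mul_assoc, toMQ_scw]

/-- The matrix of the semilinear map. -/
noncomputable def vW (W : WH ρ σ lam g th s kap a b c) (P : Matrix (Fin 3) (Fin 3) E) :
    Matrix (Fin 3) (Fin 3) E := vP (rhoK ρ) (unK W.ρlam) P

include H

theorem FD.v_comm : vW W P * MpL E p0 p1 p2 = MpL E p0 p1 p2 * vW W P :=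
  vP_comm (k := KK ρ) (L := E) (ρ := rhoK ρ) (lam := unK W.ρlam)
    (p0 := algebraMap k (KK ρ) p0) (p1 := algebraMap k (KK ρ) p1)
    (p2 := algebraMap k (KK ρ) p2) H.hP H.z1D H.zP

theorem FD.v_det : (vW W P).det ≠ 0 := det_vP (k := KK ρ) (L := E) H.hP

theorem FD.P_v : P * vW W P = um lam * P.map ρ :=
  P_mul_vP (k := KK ρ) (L := E) (ρ := rhoK ρ) (lam := unK W.ρlam) H.hP

theorem FD.uQ : (toMQ (um lam) : MQ E a b) * (H.Q : MQ E a b).map (qmap ρ) =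
    (H.Q : MQ E a b) * toMQ (vW W P) := by
  have h1 : ((m⁻¹ : (MQ E a b)ˣ) : MQ E a b) * toMQ (um lam) =
      toMQ (um lam) * ((m⁻¹ : (MQ E a b)ˣ) : MQ E a b).map (qmap ρ) := E6O.InD.inv H.mD
  rw [H.Q_val, H64.map_mul_qmap, ← Matrix.mul_assoc, ← h1, Matrix.mul_assoc, Matrix.mul_assoc,
    toMQ_map, ← toMQ_mul', ← toMQ_mul', H.P_v]

/-- The descent. -/
theorem FD.exists_phi : ∃ (r : Matrix (Fin 3) (Fin 3) E) (A B : Matrix (Fin 3) (Fin 3) k),
    r * MpL E p0 p1 p2 = MpL E p0 p1 p2 * r ∧ r.map σ = r ∧ r.det ≠ 0 ∧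
    Mp p0 p1 p2 * A = A * Mp p0 p1 p2 ∧ Mp p0 p1 p2 * B = B * Mp p0 p1 p2 ∧
    etaQ σ g p1 p2 (H.Q : MQ E a b) = toMQ r * phE th w A B :=
  H684.exists_phi W H.root H.hw H.hww H.zs H.zQ H.ws H.wQ H.v_comm H.uQ

end fd

section theta

variable {k E : Type} [Field k] [NumberField k] [Field E] [NumberField E] [Algebra k E]
  {ρ σ : E ≃ₐ[k] E} {lam : Eˣ} {g : Fin 3 → Eˣ} {th s : E} {kap a b c : kˣ}
  {W : WH ρ σ lam g th s kap a b c} {w : Qt a b} {u : kˣ} {p0 p1 p2 : k}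
  {z w' : MQ E a b} {m : (MQ E a b)ˣ} {z1 P : Matrix (Fin 3) (Fin 3) E}

theorem theta_eq (H : FD W w u p0 p1 p2 z w' m z1 P) (κ : Qt (up E a) (up E b))
    (x : AlbL E a b c) : Alb.act m⁻¹ κ (cj P x) = Alb.act H.Q (P.det • κ) x := by
  rw [cj_eq_act P H.hP, H64.act_act two_ne_zero]
  congr 1
  exact H7.mul_sc _ _

/-- The matrix `σ(Q)ᴴ Γ Q`, as a unit. -/
noncomputable def HU (σ : E ≃ₐ[k] E) (g : Fin 3 → Eˣ) (Q : (MQ E a b)ˣ) : (MQ E a b)ˣ :=
  (⟨((H64.umap σ Q : (MQ E a b)ˣ) : MQ E a b)ᴴ, (((H64.umap σ Q)⁻¹ : (MQ E a b)ˣ) : MQ E a b)ᴴ, by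
    rw [← Matrix.conjTranspose_mul, Units.inv_mul, Matrix.conjTranspose_one], by
    rw [← Matrix.conjTranspose_mul, Units.mul_inv, Matrix.conjTranspose_one]⟩ : (MQ E a b)ˣ) *
    dgU a b g * Q

omit [NumberField k] [NumberField E] in
theorem HU_val (Q : (MQ E a b)ˣ) : (HU σ g Q : MQ E a b) = HQ σ g (Q : MQ E a b) := rfl

/-- The scalar of the second component. -/
noncomputable def epE (σ : E ≃ₐ[k] E) (g : Fin 3 → Eˣ) (P r : Matrix (Fin 3) (Fin 3) E) : E :=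
  -(((g 0 : E) * g 1 * g 2) * (σ P.det * P.det) * (r.det)⁻¹)

/-- **The hermitian criterion in the coordinates of the frame.** -/
theorem FD.crit (H : FD W w u p0 p1 p2 z w' m z1 P) {r : Matrix (Fin 3) (Fin 3) E}
    {A B : Matrix (Fin 3) (Fin 3) k} (hr : r * MpL E p0 p1 p2 = MpL E p0 p1 p2 * r)
    (hrσ : r.map σ = r) (hrd : r.det ≠ 0)
    (hη : etaQ σ g p1 p2 (H.Q : MQ E a b) = toMQ r * phE th w A B)
    {φ : (MQ E a b)ˣ} (hφ : (φ : MQ E a b) = phE th w A B) {κ : Qt (up E a) (up E b)}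
    (hκ : nrd κ ≠ 0) {G : AlbL E a b c ≃ₗ[E] AlbL E a b c} (hG : G ∈ FixL E p0 p1 p2 a b c) :
    (∀ x y, her σ g (Alb.act m⁻¹ κ (cj P (G x))) (Alb.act m⁻¹ κ (cj P (G y))) =
      her σ g (Alb.act m⁻¹ κ (cj P x)) (Alb.act m⁻¹ κ (cj P y))) ↔
    ∀ x, G (amap σ (Alb.act φ (epE σ g P r • (star (qmap σ κ) * κ)) x)) =
      amap σ (Alb.act φ (epE σ g P r • (star (qmap σ κ) * κ)) (G x)) := by
  have hσ := W.rel.σ2
  have h2 : (2 : E) ≠ 0 := two_ne_zero
  have hκ' : nrd (P.det • κ) ≠ 0 := by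
    have e : nrd (P.det • κ) = P.det ^ 2 * nrd κ := by
      simp only [nrd, QuaternionAlgebra.re_smul, QuaternionAlgebra.imI_smul,
        QuaternionAlgebra.imJ_smul, QuaternionAlgebra.imK_smul, smul_eq_mul]
      ring
    rw [e]
    exact mul_ne_zero (pow_ne_zero 2 H.hP) hκ
  simp only [theta_eq H]
  have e1 := her_act' (σ := σ) (g := g) (c := c) h2 (m := H.Q) (H := HU σ g H.Q) rfl hκ'
  simp only [e1]
  rw [H684.crit hσ hG]
  -- the map `T`
  have e2 : ∀ x : AlbL E a b c, TH (HU σ g H.Q)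
      (((g 0 : E) * g 1 * g 2) • (star (qmap σ (P.det • κ)) * (P.det • κ))) p1 p2 x =
      cj r (Alb.act φ (epE σ g P r • (star (qmap σ κ) * κ)) x) := by
    intro x
    rw [TH, cj_eq_act _ detS0_ne, cj_eq_act r hrd, H64.act_act h2, H64.act_act h2]
    congr 1
    · apply Units.ext
      change toMQ (S0 (algebraMap k E p1) (algebraMap k E p2)) * HQ σ g (H.Q : MQ E a b) =
        toMQ r * (φ : MQ E a b)
      rw [hφ, ← hη]
      rfl
    · rw [H7.sc_mul, H7.sc_mul, det_S0, epE, qmap_smul, QuaternionAlgebra.star_smul,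
        smul_mul_assoc, mul_smul_comm, smul_smul, smul_smul, smul_smul, smul_smul]
      congr 1
      field_simp
  simp only [e2]
  have e3 : ∀ x : AlbL E a b c, amap σ (cj r x) = cj r (amap σ x) := by
    intro x
    rw [amap_cj, hrσ]
  have e4 : ∀ x : AlbL E a b c, G (cj r x) = cj r (G x) := fun x => comm_vP hG hrd hr x
  simp only [e3, e4]
  constructor
  · intro h x
    have h1 := congrArg (cj r⁻¹) (h x)
    rwa [cj_inv hrd, cj_inv hrd] at h1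
  · intro h x
    rw [h]

end theta

end Vale.Agent.P011.E6W.H684
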