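import Vale.Agent.P011.E6W.H684.P1f
import Vale.Agent.P011.E6W.H183.SqRes

/-!
Block E6W (B1): the scalar of the second component belongs to `k`; the descent of the polarity.
-/

open Matrix Polynomial

set_option linter.unusedSectionVars false

namespace Vale.Agent.P011.E6W.H684

open Vale.Agent.P011.MPQ hiding mat
open Vale.Agent.P011.D4 Vale.Agent.P011.D4.Oct Vale.Agent.P011.E6
open Vale.Agent.P011.E6.Alb
open Vale.Agent.P011.E6I (MQ toMQ toMQ_apply Mp S0 S1 S2 FixK S0_transpose S1_transpose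
  S2_transpose cj amap_cj cj_inv InVs)
open Vale.Agent.P011.E6I.Fx (FixL MpL det_S0 mul_S0 eq_of_comm vP vP_comm det_vP P_mul_vP comm_vP
  extA extA_aup extA_mem)
open Vale.Agent.P011.E6O (KK mkK KK_fix KK_ext InD InD0 um her)
open Vale.Agent.P011.E6W.H183 (adjM Rel WH rhoK unK exists_kW)
open Vale.Agent.P011.E6W.H7 (smU cj_eq_act)

section nu

variable {F : Type} [Field F] {a b : Fˣ}

theorem nu_toMQ0 (M : Matrix (Fin 3) (Fin 3) F) :
    nu (M.map (algebraMap F (Qt a b))) = M.det ^ 2 := by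
  have h1 : (M.map (algebraMap F (Qt a b))).conjTranspose =
      M.transpose.map (algebraMap F (Qt a b)) := by
    apply Matrix.ext
    intro i j
    ext <;> simp
  have h2 : M.det ^ 2 = (M * M.transpose).det := by
    rw [det_mul, det_transpose, sq]
  have h3 : (M * M.transpose).transpose = M * M.transpose := by
    rw [transpose_mul, transpose_transpose]
  rw [nu, h1, ← Matrix.map_mul, h2]
  generalize M * M.transpose = S at h3
  have e1 : S 1 0 = S 0 1 := congrFun (congrFun h3 0) 1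
  have e2 : S 2 0 = S 0 2 := congrFun (congrFun h3 0) 2
  have e3 : S 2 1 = S 1 2 := congrFun (congrFun h3 1) 2
  rw [det_fin_three, e1, e2, e3]
  simp [cub, ofMV, Oct.norm, nrd, bil_eq, e2]
  ring

theorem cub_inVs {c : Fˣ} {x : Alb a b c} (hx : InVs x) : cub x = H64.herN (mat x) := by
  obtain ⟨h1, h2, h3⟩ := hx
  have hv : H64.row (Alb.vec x) = 0 := by
    apply Matrix.ext
    intro i j
    change Alb.vec x j = 0
    fin_cases j
    · exact h1
    · exact h2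
    · exact h3
  rw [H64.cub_eq, hv, Matrix.zero_mul, Matrix.zero_mul]
  simp

/-- The norm of an invertible hermitian matrix is the square of its generic norm. -/
theorem nu_her (h2 : (2 : F) ≠ 0) (hab : Aniso a b) {c : Fˣ} {x : Alb a b c} (hx : InVs x)
    (h0 : cub x ≠ 0) : nu (mat x) = cub x ^ 2 := by
  have : NeZero (2 : F) := ⟨h2⟩
  have hH := H64.mat_isHermitian x
  have hadj := E6I.Gn.inV_adj hx
  have h1 := H64.herN_mul h2 hab (mat x) (mat (adj x)) (H64.mat_isHermitian _)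
  have hc : ∀ {y : Alb a b c}, InVs y → H64.herN (mat y) = cub y := by
    intro y hy
    exact (cub_inVs hy).symm
  have e1 : mat x * mat (adj x) * (mat x)ᴴ = mat (cub x • x) := by
    rw [E6I.Gn.mat_mul_adj hx, hH, Matrix.smul_mul, Matrix.one_mul, H64.mat_smul]
  rw [e1, hc (E6I.Gn.inV_smul _ hx), hc hadj, cub_smul, cub_adj] at h1
  have h3 : cub x ^ 2 * (nu (mat x) - cub x ^ 2) = 0 := by linear_combination -h1
  exact sub_eq_zero.1 ((mul_eq_zero.1 h3).resolve_left (pow_ne_zero 2 h0))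

/-- The norm of the adjoint. -/
theorem nu_conj (h2 : (2 : F) ≠ 0) (hab : Aniso a b)
    (A : (Matrix (Fin 3) (Fin 3) (Qt a b))ˣ) :
    nu (A : Matrix (Fin 3) (Fin 3) (Qt a b))ᴴ = nu (A : Matrix (Fin 3) (Fin 3) (Qt a b)) := by
  have h1 : nu (A : Matrix (Fin 3) (Fin 3) (Qt a b)) ≠ 0 := by
    intro h0
    have h := H64.nu_mul h2 hab ((A⁻¹ : (Matrix (Fin 3) (Fin 3) (Qt a b))ˣ) :
      Matrix (Fin 3) (Fin 3) (Qt a b)) (A : Matrix (Fin 3) (Fin 3) (Qt a b))
    rw [Units.inv_mul, H64.nu_one, h0, mul_zero] at h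
    exact one_ne_zero h
  have hH : ((A : Matrix (Fin 3) (Fin 3) (Qt a b)) *
      (A : Matrix (Fin 3) (Fin 3) (Qt a b))ᴴ).IsHermitian := by
    rw [Matrix.IsHermitian, Matrix.conjTranspose_mul, Matrix.conjTranspose_conjTranspose]
  obtain ⟨x, hx⟩ : ∃ x : Alb a b 1, x = ofMV ((A : Matrix (Fin 3) (Fin 3) (Qt a b)) *
      (A : Matrix (Fin 3) (Fin 3) (Qt a b))ᴴ) 0 := ⟨_, rfl⟩
  have hxV : InVs x := by rw [hx]; exact E6I.Gn.inV_ofMV _
  have hm : mat x = (A : Matrix (Fin 3) (Fin 3) (Qt a b)) *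
      (A : Matrix (Fin 3) (Fin 3) (Qt a b))ᴴ := by rw [hx]; exact H64.mat_ofMV h2 hH 0
  have hc : cub x = nu (A : Matrix (Fin 3) (Fin 3) (Qt a b)) := by
    rw [H64.nu_eq, ← hm]
    exact cub_inVs hxV
  have h3 := nu_her h2 hab hxV (by rw [hc]; exact h1)
  rw [hm, hc, H64.nu_mul h2 hab] at h3
  exact mul_left_cancel₀ h1 (h3.trans (pow_two _))

end nu

section eps

variable {k E : Type} [Field k] [NumberField k] [Field E] [NumberField E] [Algebra k E]
  {ρ σ : E ≃ₐ[k] E} {lam : Eˣ} {g : Fin 3 → Eˣ} {th s : E} {kap a b c : kˣ}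
  {W : WH ρ σ lam g th s kap a b c} {w : Qt a b} {u : kˣ} {p0 p1 p2 : k}
  {z w' : MQ E a b} {m : (MQ E a b)ˣ} {z1 P : Matrix (Fin 3) (Fin 3) E}

omit [NumberField k] [NumberField E] in
theorem nu_toMQ (x : Matrix (Fin 3) (Fin 3) E) : nu (toMQ x : MQ E a b) = x.det ^ 2 :=
  nu_toMQ0 x

theorem nu_map' (M : MQ E a b) :
    nu (M.map (qmap σ)) = σ (nu M) := E6I.nu_map M

theorem nu_dg :
    nu (dg (up E a) (up E b) g : MQ E a b) = ((g 0 : E) * g 1 * g 2) ^ 2 := by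
  have e : dg (up E a) (up E b) g = toMQ (Matrix.diagonal fun i => (g i : E)) := by
    rw [dg, toMQ, Matrix.diagonal_map (map_zero _)]
  rw [e, nu_toMQ, Matrix.det_diagonal, Fin.prod_univ_three]

/-- **The norm identity.** -/
theorem FD.norm (H : FD W w u p0 p1 p2 z w' m z1 P) {r : Matrix (Fin 3) (Fin 3) E}
    {A B : Matrix (Fin 3) (Fin 3) k} (hrd : r.det ≠ 0)
    (hA : Mp p0 p1 p2 * A = A * Mp p0 p1 p2) (hB : Mp p0 p1 p2 * B = B * Mp p0 p1 p2)
    (hη : etaQ σ g p1 p2 (H.Q : MQ E a b) = toMQ r * phE th w A B)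
    {n : E} (hn : n = nu ((m⁻¹ : (MQ E a b)ˣ) : MQ E a b)) :
    epE σ g P r ^ 2 * (n * σ n) =
      algebraMap k E (A * A - ((kap : k) * (u : k)) • (B * B)).det := by
  have hab := W.anisoE
  have h2 : (2 : E) ≠ 0 := two_ne_zero
  have hth : th * th = algebraMap k E (kap : k) := by rw [← pow_two]; exact W.th2
  have e1 := nu_phE (F := E) hab hth H.hw H.hww hA hB
  have e2 : nu (toMQ (S0 (algebraMap k E p1) (algebraMap k E p2)) : MQ E a b) = 1 := by
    rw [nu_toMQ, det_S0]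
    norm_num
  have e3 : nu (H.Q : MQ E a b) = n * P.det ^ 2 := by
    rw [H.Q_val, H64.nu_mul h2 hab, nu_toMQ, hn]
  have e4 : nu (((H.Q : MQ E a b).map (qmap σ))ᴴ) = σ (nu (H.Q : MQ E a b)) := by
    have h := nu_conj h2 hab (H64.umap σ H.Q)
    rw [H64.umap_val, nu_map'] at h
    exact h
  have e5 := congrArg nu hη
  rw [etaQ, HQ, H64.nu_mul h2 hab, H64.nu_mul h2 hab, H64.nu_mul h2 hab, H64.nu_mul h2 hab, e1, e2,
    nu_dg, e4, e3, nu_toMQ, map_mul, map_pow, one_mul] at e5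
  rw [epE]
  have h3 : r.det ^ 2 * ((-(((g 0 : E) * g 1 * g 2) * (σ P.det * P.det) * (r.det)⁻¹)) ^ 2 *
      (n * σ n)) = r.det ^ 2 *
        algebraMap k E (A * A - ((kap : k) * (u : k)) • (B * B)).det := by
    rw [← e5]
    field_simp
  exact mul_left_cancel₀ (pow_ne_zero 2 hrd) h3

/-- **The scalar belongs to `k`.** -/
theorem FD.exists_ep (H : FD W w u p0 p1 p2 z w' m z1 P) {r : Matrix (Fin 3) (Fin 3) E}
    {A B : Matrix (Fin 3) (Fin 3) k} (hrσ : r.map σ = r) (hrd : r.det ≠ 0)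
    (hA : Mp p0 p1 p2 * A = A * Mp p0 p1 p2) (hB : Mp p0 p1 p2 * B = B * Mp p0 p1 p2)
    (hη : etaQ σ g p1 p2 (H.Q : MQ E a b) = toMQ r * phE th w A B) :
    ∃ ε : k, algebraMap k E ε = epE σ g P r ∧ ε ≠ 0 := by
  have hab := W.anisoE
  obtain ⟨e, he⟩ : ∃ e, e = epE σ g P r := ⟨_, rfl⟩
  have hσ := W.rel.σ2
  -- the norm of `m⁻¹`
  obtain ⟨κ, hκ⟩ := E6I.exists_kapI W.HI (m := m⁻¹) (E6O.InD.inv H.mD)
  obtain ⟨n, hn⟩ : ∃ n : KK ρ, n = nrd κ := ⟨_, rfl⟩
  have hnE : algebraMap (KK ρ) E n = nu ((m⁻¹ : (MQ E a b)ˣ) : MQ E a b) := by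
    refine Eq.trans ?_ hκ
    rw [hn, nrd_qup]
  have hnu : nu ((m⁻¹ : (MQ E a b)ˣ) : MQ E a b) ≠ 0 := H64.nu_ne_zero two_ne_zero hab _
  have h1 := H.norm hrd hA hB hη hnE
  rw [← he] at h1
  have hρn : ρ (algebraMap (KK ρ) E n) = algebraMap (KK ρ) E n := KK_fix ρ n
  have hdet : σ (r.det) = r.det := by
    have h3 : (r.map σ).det = σ r.det := (RingHom.map_det (σ : E →+* E) r).symm
    rw [← h3, hrσ]
  have hσe : σ e = e := by
    rw [he, epE, map_neg, map_mul, map_mul, map_mul, map_mul, map_mul, hσ, map_inv₀, hdet,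
      W.rel.σg, W.rel.σg, W.rel.σg, mul_comm P.det]
  have hρe2 : ρ e ^ 2 = e ^ 2 := by
    have h3 := congrArg ρ h1
    rw [map_mul, map_pow, map_mul, W.rel.comm, hρn, AlgEquiv.commutes, ← h1] at h3
    have hne : algebraMap (KK ρ) E n * σ (algebraMap (KK ρ) E n) ≠ 0 := by
      rw [hnE]
      exact mul_ne_zero hnu ((_root_.map_ne_zero σ).mpr hnu)
    exact mul_right_cancel₀ hne h3
  have he0 : e ≠ 0 := by
    rw [he, epE]
    have g0 := (g 0).ne_zero
    have g1 := (g 1).ne_zero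
    have g2 := (g 2).ne_zero
    have hP := H.hP
    have hPσ : σ P.det ≠ 0 := (_root_.map_ne_zero σ).mpr H.hP
    exact neg_ne_zero.mpr (mul_ne_zero (mul_ne_zero (mul_ne_zero (mul_ne_zero g0 g1) g2)
      (mul_ne_zero hPσ hP)) (inv_ne_zero hrd))
  have hρe : ρ e = e := by
    rcases sq_eq_sq_iff_eq_or_eq_neg.mp hρe2 with h | h
    · exact h
    · exfalso
      have h3 := W.ρ3 e
      rw [h, map_neg, h, neg_neg, h] at h3
      have h4 : (2 : E) * e = 0 := by linear_combination -h3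
      exact he0 ((mul_eq_zero.mp h4).resolve_left two_ne_zero)
  obtain ⟨ε, hε⟩ := exists_kW W hρe hσe
  refine ⟨ε, hε.trans he, ?_⟩
  rintro rfl
  rw [map_zero] at hε
  exact he0 hε.symm

end eps

section desc

variable {k E : Type} [Field k] [NumberField k] [Field E] [NumberField E] [Algebra k E]
  {ρ σ : E ≃ₐ[k] E} {a b c : kˣ}

/-- The extension of scalars from the fixed field of `ρ`, for the linear maps. -/
noncomputable def eK (g : AlbL (KK ρ) a b c ≃ₗ[KK ρ] AlbL (KK ρ) a b c) :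
    AlbL E a b c ≃ₗ[E] AlbL E a b c :=
  (extA E g : AlbL E (up (KK ρ) a) (up (KK ρ) b) (up (KK ρ) c) ≃ₗ[E]
    AlbL E (up (KK ρ) a) (up (KK ρ) b) (up (KK ρ) c))

theorem eK_aK (g : AlbL (KK ρ) a b c ≃ₗ[KK ρ] AlbL (KK ρ) a b c) (x : AlbL (KK ρ) a b c) :
    eK g (aK ρ x) = aK ρ (g x) :=
  extA_aup (L := E) (a := up (KK ρ) a) (b := up (KK ρ) b) (c := up (KK ρ) c) g x

/-- **The descent of the polarity.** -/
theorem comm_iff (hσ : ∀ x, σ (σ x) = x) (hc : ∀ x, ρ (σ x) = σ (ρ x))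
    (g : AlbL (KK ρ) a b c ≃ₗ[KK ρ] AlbL (KK ρ) a b c) (φ : (MQ (KK ρ) a b)ˣ)
    (κ : Qt (up (KK ρ) a) (up (KK ρ) b)) :
    (∀ x, eK g (amap σ (Alb.act (uK ρ φ) (qK ρ κ) x)) =
      amap σ (Alb.act (uK ρ φ) (qK ρ κ) (eK g x))) ↔
    ∀ X, g (amap (sK hσ hc) (Alb.act φ κ X)) = amap (sK hσ hc) (Alb.act φ κ (g X)) := by
  constructor
  · intro h X
    have h1 := h (aK ρ X)
    rw [act_aK, amap_aK hσ hc, eK_aK, eK_aK, act_aK, amap_aK hσ hc] at h1
    exact aK_injective h1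
  · intro h
    let T1 : AlbL E a b c →ₗ[E] AlbL E a b c :=
      { toFun := fun x => amap σ (eK g (amap σ (Alb.act (uK ρ φ) (qK ρ κ) x)))
        map_add' := fun x y => by rw [H64.act_add, amap_add, map_add, amap_add]
        map_smul' := fun t x => by
          rw [H64.act_smul, amap_smul, map_smul, amap_smul, hσ, RingHom.id_apply] }
    let T2 : AlbL E a b c →ₗ[E] AlbL E a b c :=
      { toFun := fun x => Alb.act (uK ρ φ) (qK ρ κ) (eK g x)
        map_add' := fun x y => by rw [map_add, H64.act_add]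
        map_smul' := fun t x => by rw [map_smul, H64.act_smul, RingHom.id_apply] }
    have h1 : T1 = T2 := by
      apply aK_unique (ρ := ρ)
      intro X
      change amap σ (eK g (amap σ (Alb.act (uK ρ φ) (qK ρ κ) (aK ρ X)))) =
        Alb.act (uK ρ φ) (qK ρ κ) (eK g (aK ρ X))
      rw [act_aK, amap_aK hσ hc, eK_aK, h, ← amap_aK hσ hc, Alb.amap_amap σ hσ, eK_aK, act_aK]
    intro x
    have h2 : amap σ (eK g (amap σ (Alb.act (uK ρ φ) (qK ρ κ) x))) =
        Alb.act (uK ρ φ) (qK ρ κ) (eK g x) :=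
      congrArg (fun T : AlbL E a b c →ₗ[E] AlbL E a b c => T x) h1
    rw [← h2, Alb.amap_amap σ hσ]

end desc

end Vale.Agent.P011.E6W.H684
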