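import Vale.Agent.P011.E6W.H684.P1g
import Vale.Agent.P011.E6W.H183.VZ
import Vale.Agent.P011.E6W.H7.Sk
import Vale.Agent.P011.E6W.H964.Uw

/-!
Block E6W (B1): the frames of the certificates.
-/

open Matrix Polynomial

set_option linter.unusedSectionVars false

namespace Vale.Agent.P011.E6W.H684

open Vale.Agent.P011.MPQ hiding mat
open Vale.Agent.P011.D4 Vale.Agent.P011.D4.Oct Vale.Agent.P011.E6
open Vale.Agent.P011.E6.Alb
open Vale.Agent.P011.E6I (MQ toMQ toMQ_apply Mp S0 S1 S2 FixK S0_transpose S1_transpose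
  S2_transpose cj amap_cj cj_inv InVs)
open Vale.Agent.P011.E6I.Fx (FixL MpL det_S0 mul_S0 eq_of_comm vP vP_comm det_vP P_mul_vP comm_vP
  extA extA_aup extA_mem)
open Vale.Agent.P011.E6O (KK mkK KK_fix KK_ext InD InD0 um her)
open Vale.Agent.P011.E6W.H183 (adjM Rel WH rhoK unK exists_kW Cub ez)
open Vale.Agent.P011.E6W.H196 (dsc3)
open Vale.Agent.P011.E6W.H7 (smU cj_eq_act)

theorem dsc3_neg {F : Type} [Field F] (p₂ p₁ p₀ : F) :
    dsc3 (-p₀) (-p₁) (-p₂) = dsc p₂ p₁ p₀ := by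
  rw [dsc3, dsc]
  ring

section root

variable {k E : Type} [Field k] [NumberField k] [Field E] [NumberField E] [Algebra k E]
  {ρ σ : E ≃ₐ[k] E} {lam : Eˣ} {g : Fin 3 → Eˣ} {th s : E} {kap a b c : kˣ}

/-- An irreducible cubic polynomial whose discriminant is not a square in the quadratic extension
has no root in the cyclic extension of degree six. -/
theorem no_root (W : WH ρ σ lam g th s kap a b c) {p0 p1 p2 : k}
    (hirr : Irreducible (X ^ 3 + C p2 * X ^ 2 + C p1 * X + C p0 : k[X]))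
    (hd : ¬ IsSquare (dsc3 p0 p1 p2)) (hd' : ¬ IsSquare (dsc3 p0 p1 p2 * kap)) (t : E) :
    t ^ 3 + algebraMap k E p2 * t ^ 2 + algebraMap k E p1 * t + algebraMap k E p0 ≠ 0 := by
  intro ht
  obtain ⟨r, hr⟩ : ∃ r, r = ρ t := ⟨_, rfl⟩
  obtain ⟨q, hq⟩ : ∃ q, q = ρ r := ⟨_, rfl⟩
  have hρq : ρ q = t := by rw [hq, hr]; exact W.ρ3 t
  have hfr : r ^ 3 + algebraMap k E p2 * r ^ 2 + algebraMap k E p1 * r + algebraMap k E p0 = 0 := by
    have h := congrArg ρ ht
    simpa [hr] using h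
  have hfq : q ^ 3 + algebraMap k E p2 * q ^ 2 + algebraMap k E p1 * q + algebraMap k E p0 = 0 := by
    have h := congrArg ρ hfr
    simpa [hq] using h
  by_cases htr : r = t
  · -- the root belongs to the quadratic extension
    have h1 : ρ t = t := hr.symm.trans htr
    have hmon : (X ^ 3 + C p2 * X ^ 2 + C p1 * X + C p0 : k[X]).Monic := by monicity!
    have hdeg : (X ^ 3 + C p2 * X ^ 2 + C p1 * X + C p0 : k[X]).natDegree = 3 := by
      compute_degree!
    obtain ⟨x, hx⟩ : ∃ x : KK ρ, algebraMap (KK ρ) E x = t := ⟨mkK h1, rfl⟩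
    have hroot : aeval x (X ^ 3 + C p2 * X ^ 2 + C p1 * X + C p0 : k[X]) = 0 := by
      apply KK_ext
      simp only [map_add, map_mul, map_pow, aeval_X, aeval_C, map_zero, hx]
      exact ht
    have h2 : Module.finrank k (KK ρ) = 2 := (H183.setW W).rank
    have hfin : FiniteDimensional k (KK ρ) :=
      Module.finite_of_finrank_pos (by rw [h2]; norm_num)
    have h3 := minpoly.eq_of_irreducible_of_monic hirr hroot hmon
    have h4 := minpoly.natDegree_le (A := k) x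
    rw [← h3, hdeg, h2] at h4
    omega
  · -- the roots are distinct
    have htr' : t - r ≠ 0 := fun h => htr (sub_eq_zero.mp h).symm
    have hrq : r - q ≠ 0 := by
      intro h
      apply htr
      have h1 : ρ t = ρ r := by rw [← hr, ← hq]; exact sub_eq_zero.mp h
      exact (ρ.injective h1).symm
    have htq : t - q ≠ 0 := by
      intro h
      apply htr
      have h1 : ρ t = ρ q := by rw [sub_eq_zero.mp h]
      rw [← hr, hρq] at h1
      exact h1
    have e1 : t ^ 2 + t * r + r ^ 2 + algebraMap k E p2 * (t + r) + algebraMap k E p1 = 0 := by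
      apply mul_left_cancel₀ htr'
      linear_combination ht - hfr
    have e2 : t ^ 2 + t * q + q ^ 2 + algebraMap k E p2 * (t + q) + algebraMap k E p1 = 0 := by
      apply mul_left_cancel₀ htq
      linear_combination ht - hfq
    have e3 : t + r + q + algebraMap k E p2 = 0 := by
      apply mul_left_cancel₀ hrq
      linear_combination e1 - e2
    have h2 : algebraMap k E p2 = -(t + r + q) := by linear_combination e3
    have h1 : algebraMap k E p1 = t * r + t * q + r * q := by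
      rw [h2] at e1
      linear_combination e1
    have h0 : algebraMap k E p0 = -(t * r * q) := by
      rw [h2, h1] at ht
      linear_combination ht
    obtain ⟨δ, hδ⟩ : ∃ δ, δ = (t - r) * (t - q) * (r - q) := ⟨_, rfl⟩
    have hδ2 : δ ^ 2 = algebraMap k E (dsc3 p0 p1 p2) := by
      rw [dsc3]
      simp only [map_add, map_sub, map_mul, map_pow, map_ofNat]
      rw [h2, h1, h0, hδ]
      ring
    have hρδ : ρ δ = δ := by
      rw [hδ, map_mul, map_mul, map_sub, map_sub, map_sub, ← hr, ← hq, hρq]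
      ring
    have hσδ : σ δ ^ 2 = δ ^ 2 := by
      rw [← map_pow, hδ2, AlgEquiv.commutes]
    rcases sq_eq_sq_iff_eq_or_eq_neg.mp hσδ with h | h
    · obtain ⟨x, hx⟩ := exists_kW W hρδ h
      apply hd
      refine ⟨x, (algebraMap k E).injective ?_⟩
      rw [← hδ2, map_mul, hx, pow_two]
    · obtain ⟨x, hx⟩ := exists_kW W (x := δ * th) (by rw [map_mul, hρδ, W.ρth])
        (by rw [map_mul, h, W.σth, neg_mul_neg])
      apply hd'
      refine ⟨x, (algebraMap k E).injective ?_⟩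
      rw [map_mul, map_mul, ← hδ2, hx, ← W.th2]
      ring

end root

section cert

variable {k E : Type} [Field k] [NumberField k] [Field E] [NumberField E] [Algebra k E]
  {ρ σ : E ≃ₐ[k] E} {lam : Eˣ} {g : Fin 3 → Eˣ} {th s : E} {kap a b c : kˣ}

/-- The coordinates attached to a certificate. -/
theorem exists_FD (W : WH ρ σ lam g th s kap a b c) {z i₁ j₁ : MQ E a b} {v : AlbL E a b c}
    {p₂ p₁ p₀ : k} {A B : Fin 3 → k}
    (C : Cert2 ρ σ lam g (kap : k) z i₁ j₁ v p₂ p₁ p₀ A B) {w : Qt a b} {u : kˣ}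
    (hw : w.re = 0) (hww : w * w = (u : k) • (1 : Qt a b)) {w' : MQ E a b} (hwD : InD ρ lam w')
    (hwz : w' * z = z * w') (hws : adjM σ g w' = -w')
    (hww' : w' * w' = algebraMap k E (u : k) • (1 : MQ E a b)) :
    ∃ (m : (MQ E a b)ˣ) (z1 P : Matrix (Fin 3) (Fin 3) E),
      FD W w u (-p₀) (-p₁) (-p₂) z w' m z1 P ∧
      Irreducible (X ^ 3 + Polynomial.C (-p₂) * X ^ 2 + Polynomial.C (-p₁) * X +
        Polynomial.C (-p₀) : k[X]) := by
  obtain ⟨m, z1, P, h1, h2, h3, _, h5, h6, h7, h8⟩ :=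
    H7.exists_mP W C.inD hwD hwz.symm C.cub C.ind hw hww hww'
  refine ⟨m, z1, P, ⟨hw, hww, C.sym, hws, h1, h2, h3, h5, h6, h7, ?_⟩, h8⟩
  exact no_root W h8 (by rw [dsc3_neg]; exact C.dsc) (by rw [dsc3_neg]; exact C.dsc')

variable {W : WH ρ σ lam g th s kap a b c} {w : Qt a b} {u : kˣ} {p0 p1 p2 : k}
  {z w' : MQ E a b} {m : (MQ E a b)ˣ} {z1 P : Matrix (Fin 3) (Fin 3) E}

/-- The frame in the coordinates of `z1`. -/
theorem FD.fix_ofF (H : FD W w u p0 p1 p2 z w' m z1 P) {v : AlbL E a b c} {P2 P1 P0 : E}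
    (hv : InVs v) (h0 : Alb.cub v ≠ 0) (hzv : z * Alb.mat v = Alb.mat v * zᴴ)
    (hc : Cub z P2 P1 P0) (hu : IsUnit (ez z ![-P1, -(2 * P2), 3]))
    {h : AlbL E a b c ≃ₗ[E] AlbL E a b c} (hf : FixFr z v h) (κ : Qt (up E a) (up E b))
    {S : Matrix (Fin 3) (Fin 3) E} (hS : Sᵀ = S) (hzS : z1 * S = S * z1ᵀ) :
    h (Alb.act m⁻¹ κ (ofF S)) = Alb.act m⁻¹ κ (ofF S) := by
  have hSV : InVs (ofF S : AlbL E a b c) := ⟨by simp [ofF], by simp [ofF], by simp [ofF]⟩
  have hyV : InVs (Alb.act m⁻¹ κ (ofF S) : AlbL E a b c) := E6I.Gn.inV_act hSV _ _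
  have hmat : Alb.mat (Alb.act m⁻¹ κ (ofF S) : AlbL E a b c) =
      ((m⁻¹ : (MQ E a b)ˣ) : MQ E a b) * toMQ S * (((m⁻¹ : (MQ E a b)ˣ) : MQ E a b))ᴴ := by
    rw [H64.mat_act two_ne_zero, E6I.Fx.mat_ofF hS]
    rfl
  have h1 : z * ((m⁻¹ : (MQ E a b)ˣ) : MQ E a b) =
      ((m⁻¹ : (MQ E a b)ˣ) : MQ E a b) * toMQ z1 := by
    rw [← Units.mul_right_inj m, ← mul_assoc, ← mul_assoc, H.mz, mul_assoc, Units.mul_inv,
      mul_one, one_mul]
  have h2 : (((m⁻¹ : (MQ E a b)ˣ) : MQ E a b))ᴴ * zᴴ =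
      (toMQ z1)ᴴ * (((m⁻¹ : (MQ E a b)ˣ) : MQ E a b))ᴴ := by
    rw [← Matrix.conjTranspose_mul, h1, Matrix.conjTranspose_mul]
  have hzy : z * Alb.mat (Alb.act m⁻¹ κ (ofF S) : AlbL E a b c) =
      Alb.mat (Alb.act m⁻¹ κ (ofF S) : AlbL E a b c) * zᴴ := by
    rw [hmat, ← Matrix.mul_assoc, ← Matrix.mul_assoc, h1, Matrix.mul_assoc _ _ zᴴ, h2,
      Matrix.mul_assoc _ (toMQ z1) (toMQ S), ← toMQ_mul', hzS, toMQ_mul', toMQ_conj]
    simp only [Matrix.mul_assoc]
  obtain ⟨t, ht⟩ := H183.vz hv h0 hzv hc hu hyV hzy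
  exact hf _ hyV ⟨t 0, t 1, t 2, ht⟩

end cert

end Vale.Agent.P011.E6W.H684
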