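import Vale.Agent.P011.E6W.H684.P1h
import Vale.Agent.P011.E6W.H183.EmbE

/-!
Block E6W (B1): the pointwise stabilizer of a frame, as a group over the quadratic extension.
-/

open Matrix Polynomial

set_option linter.unusedSectionVars false

namespace Vale.Agent.P011.E6W.H684

open Vale.Agent.P011.MPQ hiding mat
open Vale.Agent.P011.D4 Vale.Agent.P011.D4.Oct Vale.Agent.P011.E6
open Vale.Agent.P011.E6.Alb
open Vale.Agent.P011.E6I (MQ toMQ toMQ_apply Mp S0 S1 S2 FixK S0_transpose S1_transpose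
  S2_transpose cj amap_cj cj_inv InVs)
open Vale.Agent.P011.E6I.Fx (FixL MpL det_S0 mul_S0 eq_of_comm vP vP_comm det_vP P_mul_vP comm_vP
  extA extA_aup extA_mem extA_eq extA_mul conjP conjP_apply conjP_cj)
open Vale.Agent.P011.E6O (KK mkK KK_fix KK_ext InD InD0 um her GO Res)
open Vale.Agent.P011.E6W.H183 (adjM Rel WH rhoK unK exists_kW Cub ez)
open Vale.Agent.P011.E6W.H196 (dsc3)
open Vale.Agent.P011.E6W.H7 (smU cj_eq_act)

section sd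

variable {k E : Type} [Field k] [NumberField k] [Field E] [NumberField E] [Algebra k E]
  {ρ σ : E ≃ₐ[k] E} {lam : Eˣ} {g : Fin 3 → Eˣ} {th s : E} {kap a b c : kˣ}
  {W : WH ρ σ lam g th s kap a b c} {w : Qt a b} {u : kˣ} {p0 p1 p2 : k}
  {z w' : MQ E a b} {m : (MQ E a b)ˣ} {z1 P : Matrix (Fin 3) (Fin 3) E}

/-- The square root of `kap` in the fixed field of `ρ`. -/
def thF (W : WH ρ σ lam g th s kap a b c) : KK ρ := mkK W.ρth

/-- The data of the stabilizer. -/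
structure SDt (_ : FD W w u p0 p1 p2 z w' m z1 P) (r : Matrix (Fin 3) (Fin 3) E)
    (A B : Matrix (Fin 3) (Fin 3) k) (φ : (MQ (KK ρ) a b)ˣ)
    (κ : Qt (up (KK ρ) a) (up (KK ρ) b)) (ε : k)
    (Ψ : AlbL E a b c ≃ₗ[E] AlbL E a b c) : Prop where
  /-- `r` commutes with the companion matrix -/
  hr : r * MpL E p0 p1 p2 = MpL E p0 p1 p2 * r
  /-- `r` is fixed by `σ` -/
  hrσ : r.map σ = r
  /-- `r` is invertible -/
  hrd : r.det ≠ 0
  /-- `A` commutes with the companion matrix -/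
  hA : Mp p0 p1 p2 * A = A * Mp p0 p1 p2
  /-- `B` commutes with the companion matrix -/
  hB : Mp p0 p1 p2 * B = B * Mp p0 p1 p2
  /-- the hermitian matrix in the coordinates of the frame -/
  hη : etaQ σ g p1 p2 (((m⁻¹ : (MQ E a b)ˣ) : MQ E a b) * toMQ P) = toMQ r * phE th w A B
  /-- the element `φ` -/
  hφ : (φ : MQ (KK ρ) a b) = phE (thF W) w A B
  /-- the norm of `κ` -/
  hκ : nrd (qK ρ κ) = nu ((m⁻¹ : (MQ E a b)ˣ) : MQ E a b)
  /-- the similitude -/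
  hΨ : ∀ x, Ψ x = Alb.act m⁻¹ (qK ρ κ) x
  /-- the scalar -/
  hε : algebraMap k E ε = epE σ g P r
  /-- the scalar -/
  hε0 : ε ≠ 0

theorem thF_sq (W : WH ρ σ lam g th s kap a b c) :
    thF W * thF W = algebraMap k (KK ρ) (kap : k) := by
  apply KK_ext
  rw [map_mul]
  change th * th = algebraMap k E (kap : k)
  rw [← pow_two, W.th2]

theorem sK_thF (W : WH ρ σ lam g th s kap a b c) :
    sK W.rel.σ2 W.rel.comm (thF W) = -thF W := by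
  apply KK_ext
  rw [algebraMap_sK, map_neg]
  exact W.σth

/-- **The data of the stabilizer exist.** -/
theorem FD.exists_SD (H : FD W w u p0 p1 p2 z w' m z1 P) :
    ∃ (r : Matrix (Fin 3) (Fin 3) E) (A B : Matrix (Fin 3) (Fin 3) k) (φ : (MQ (KK ρ) a b)ˣ)
      (κ : Qt (up (KK ρ) a) (up (KK ρ) b)) (ε : k) (Ψ : AlbL E a b c ≃ₗ[E] AlbL E a b c),
      SDt H r A B φ κ ε Ψ := by
  have hab := W.anisoE
  obtain ⟨r, A, B, hr, hrσ, hrd, hA, hB, hη⟩ := H.exists_phi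
  obtain ⟨κ, Ψ, hκ, hΨ⟩ := E6I.exists_sim W.HI (m := m⁻¹) (E6O.InD.inv H.mD)
  obtain ⟨ε, hε, hε0⟩ := H.exists_ep hrσ hrd hA hB hη
  have hnu : nu ((m⁻¹ : (MQ E a b)ˣ) : MQ E a b) ≠ 0 := H64.nu_ne_zero two_ne_zero hab _
  have hnorm := H.norm hrd hA hB hη rfl
  have hdet : (A * A - ((kap : k) * (u : k)) • (B * B)).det ≠ 0 := by
    intro h0
    rw [h0, map_zero, ← hε] at hnorm
    have h1 : algebraMap k E ε ≠ 0 := (_root_.map_ne_zero _).mpr hε0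
    exact mul_ne_zero (pow_ne_zero 2 h1) (mul_ne_zero hnu ((_root_.map_ne_zero σ).mpr hnu)) hnorm
  have hAB : A * B = B * A := comm_comm hA.symm hB.symm
  obtain ⟨φ, hφ⟩ := exists_phU (F := KK ρ) (thF_sq W) H.hww hAB hdet
  exact ⟨r, A, B, φ, κ, ε, Ψ, hr, hrσ, hrd, hA, hB, hη, hφ, hκ, hΨ, hε, hε0⟩

variable {H : FD W w u p0 p1 p2 z w' m z1 P} {r : Matrix (Fin 3) (Fin 3) E}
  {A B : Matrix (Fin 3) (Fin 3) k} {φ : (MQ (KK ρ) a b)ˣ} {κ : Qt (up (KK ρ) a) (up (KK ρ) b)}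
  {ε : k} {Ψ : AlbL E a b c ≃ₗ[E] AlbL E a b c} (S : SDt H r A B φ κ ε Ψ)

theorem nrd_qK (κ : Qt (up (KK ρ) a) (up (KK ρ) b)) :
    nrd (qK ρ κ) = algebraMap (KK ρ) E (nrd κ) := nrd_qup (L := E) κ

theorem qK_smul (t : KK ρ) (x : Qt (up (KK ρ) a) (up (KK ρ) b)) :
    qK ρ (t • x) = algebraMap (KK ρ) E t • qK ρ x := qup_smul (L := E) t x

theorem qK_mul (x y : Qt (up (KK ρ) a) (up (KK ρ) b)) : qK ρ (x * y) = qK ρ x * qK ρ y :=
  qup_mul (L := E) x y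

theorem qK_star (x : Qt (up (KK ρ) a) (up (KK ρ) b)) : qK ρ (star x) = star (qK ρ x) :=
  qup_star (L := E) x

include S in
theorem SDt.nrd_ne : nrd κ ≠ 0 := by
  intro h0
  have h1 := S.hκ
  rw [nrd_qK, h0, map_zero] at h1
  exact H64.nu_ne_zero two_ne_zero W.anisoE _ h1.symm

include S in
theorem SDt.uK_val : (uK ρ φ : MQ E a b) = phE th w A B := by
  rw [H684.uK_val, S.hφ]
  apply Matrix.ext
  intro i j
  change qK ρ (algebraMap (KK ρ) (Qt (up (KK ρ) a) (up (KK ρ) b)) (algebraMap k (KK ρ) (A i j)) +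
    (thF W * algebraMap k (KK ρ) (B i j)) • qup (KK ρ) w) =
      algebraMap E (Qt (up E a) (up E b)) (algebraMap k E (A i j)) +
        (th * algebraMap k E (B i j)) • qup E w
  rw [qK, qup_add, qup_smul]
  congr 1

/-- The element of the second component. -/
noncomputable def kapF (W : WH ρ σ lam g th s kap a b c) (κ : Qt (up (KK ρ) a) (up (KK ρ) b))
    (ε : k) : Qt (up (KK ρ) a) (up (KK ρ) b) :=
  algebraMap k (KK ρ) ε • (star (qmap (sK W.rel.σ2 W.rel.comm) κ) * κ)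

/-- The element of the second component of the polarity. -/
noncomputable def kapS (W : WH ρ σ lam g th s kap a b c) (κ : Qt (up (KK ρ) a) (up (KK ρ) b)) :
    Qt (up (KK ρ) a) (up (KK ρ) b) := qmap (sK W.rel.σ2 W.rel.comm) κ

theorem sK_sK (W : WH ρ σ lam g th s kap a b c) (x : KK ρ) :
    sK W.rel.σ2 W.rel.comm (sK W.rel.σ2 W.rel.comm x) = x := by
  apply KK_ext
  rw [algebraMap_sK, algebraMap_sK]
  exact W.rel.σ2 _

theorem qmap_qmap_sK (W : WH ρ σ lam g th s kap a b c) (x : Qt (up (KK ρ) a) (up (KK ρ) b)) :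
    qmap (sK W.rel.σ2 W.rel.comm) (qmap (sK W.rel.σ2 W.rel.comm) x) = x := by
  ext <;> exact sK_sK W _

theorem amap_kapF (W : WH ρ σ lam g th s kap a b c) (φ : (MQ (KK ρ) a b)ˣ)
    (κ : Qt (up (KK ρ) a) (up (KK ρ) b)) (ε : k) (X : AlbL (KK ρ) a b c) :
    amap (sK W.rel.σ2 W.rel.comm) (Alb.act φ (kapF W κ ε) X) =
      Alb.act (H64.umap (sK W.rel.σ2 W.rel.comm) φ) (algebraMap k (KK ρ) ε •
        (star (qmap (sK W.rel.σ2 W.rel.comm) (kapS W κ)) * kapS W κ))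
        (amap (sK W.rel.σ2 W.rel.comm) X) := by
  rw [H64.amap_act two_ne_zero]
  congr 1
  rw [kapF, kapS, qmap_smul, AlgEquiv.commutes, qmap_mul, qmap_star, qmap_qmap_sK W]

theorem qK_kapF (hε : algebraMap k E ε = epE σ g P r) :
    qK ρ (kapF W κ ε) = epE σ g P r • (star (qmap σ (qK ρ κ)) * qK ρ κ) := by
  rw [kapF, qK_smul, qK_mul, qK_star, ← hε]
  rfl

theorem extF_mem {f : AlbL (KK ρ) a b c ≃ₗ[KK ρ] AlbL (KK ρ) a b c}
    (hf : f ∈ FixK (algebraMap k (KK ρ) p0) (algebraMap k (KK ρ) p1) (algebraMap k (KK ρ) p2)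
      (up (KK ρ) a) (up (KK ρ) b) (up (KK ρ) c)) :
    eK f ∈ FixL E p0 p1 p2 a b c :=
  extA_mem (k := KK ρ) (L := E) hf

theorem mem_GO_iff (W : WH ρ σ lam g th s kap a b c) (h : AlbL E a b c ≃ₗ[E] AlbL E a b c) :
    h ∈ GO ρ σ lam g a b c ↔
      h ∈ E6I.GI (rhoK ρ) (unK W.ρlam) (up (KK ρ) a) (up (KK ρ) b) (up (KK ρ) c) ∧
        ∀ x y, her σ g (h x) (h y) = her σ g x y := by
  constructor
  · rintro ⟨h1, h2, h3⟩
    exact ⟨⟨h1, h2⟩, h3⟩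
  · rintro ⟨⟨h1, h2⟩, h3⟩
    exact ⟨h1, h2, h3⟩

include S in
theorem SDt.mem_GI (f : AlbL E a b c ≃ₗ[E] AlbL E a b c) :
    f ∈ E6I.GI (rhoK ρ) (unK W.ρlam) (up (KK ρ) a) (up (KK ρ) b) (up (KK ρ) c) ↔
      Ψ * f * Ψ⁻¹ ∈ E6I.GI (rhoK ρ) (unK W.ρlam) (up (KK ρ) a) (up (KK ρ) b) (up (KK ρ) c) :=
  E6I.sim_GI W.HI (m := m⁻¹) (E6O.InD.inv H.mD) (κ := κ) S.hκ (Ψ := Ψ) S.hΨ f

include S in
/-- **The stabilizer of the frame, in the coordinates over the quadratic extension.** -/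
theorem SDt.mem_iff {f : AlbL (KK ρ) a b c ≃ₗ[KK ρ] AlbL (KK ρ) a b c}
    (hf : f ∈ FixK (algebraMap k (KK ρ) p0) (algebraMap k (KK ρ) p1) (algebraMap k (KK ρ) p2)
      (up (KK ρ) a) (up (KK ρ) b) (up (KK ρ) c)) :
    Ψ * conjP P H.hP (eK f) * Ψ⁻¹ ∈ GO ρ σ lam g a b c ↔
      f ∈ GKJ (sK W.rel.σ2 W.rel.comm) p0 p1 p2 c (H64.umap (sK W.rel.σ2 W.rel.comm) φ)
        (algebraMap k (KK ρ) ε •
          (star (qmap (sK W.rel.σ2 W.rel.comm) (kapS W κ)) * kapS W κ)) := by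
  have hF := extF_mem (E := E) hf
  have h1 : conjP P H.hP (eK f) ∈
      E6I.GI (rhoK ρ) (unK W.ρlam) (up (KK ρ) a) (up (KK ρ) b) (up (KK ρ) c) :=
    (E6I.Fx.conjP_mem (k := KK ρ) (L := E) (ρ := rhoK ρ) (lam := unK W.ρlam)
      (a := up (KK ρ) a) (b := up (KK ρ) b) (c := up (KK ρ) c)
      (p0 := algebraMap k (KK ρ) p0) (p1 := algebraMap k (KK ρ) p1)
      (p2 := algebraMap k (KK ρ) p2) H.hP H.z1D H.zP (extA_mem hf)).2
      (E6I.Fx.extA_amap (rhoK ρ) f)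
  have h2 := (S.mem_GI _).1 h1
  have hκ0 : nrd (qK ρ κ) ≠ 0 := by
    rw [S.hκ]
    exact H64.nu_ne_zero two_ne_zero W.anisoE _
  have h3 := H.crit S.hr S.hrσ S.hrd S.hη S.uK_val hκ0 hF
  have h4 : (∀ x y, her σ g ((Ψ * conjP P H.hP (eK f) * Ψ⁻¹) x)
      ((Ψ * conjP P H.hP (eK f) * Ψ⁻¹) y) = her σ g x y) ↔
      ∀ x y, her σ g (Alb.act m⁻¹ (qK ρ κ) (cj P (eK f x))) (Alb.act m⁻¹ (qK ρ κ) (cj P (eK f y))) =
        her σ g (Alb.act m⁻¹ (qK ρ κ) (cj P x)) (Alb.act m⁻¹ (qK ρ κ) (cj P y)) := by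
    have e : ∀ x, (Ψ * conjP P H.hP (eK f) * Ψ⁻¹) (Ψ (cj P x)) =
        Alb.act m⁻¹ (qK ρ κ) (cj P (eK f x)) := by
      intro x
      rw [LinearEquiv.mul_apply, LinearEquiv.mul_apply]
      have e1 : Ψ⁻¹ (Ψ (cj P x)) = cj P x := Ψ.symm_apply_apply _
      rw [e1, conjP_cj, S.hΨ]
    constructor
    · intro h x y
      rw [← e, ← e, h, S.hΨ, S.hΨ]
    · intro h x y
      obtain ⟨x1, rfl⟩ := Ψ.surjective x
      obtain ⟨y1, rfl⟩ := Ψ.surjective y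
      obtain ⟨x2, rfl⟩ := (E6I.cjE P H.hP).surjective x1
      obtain ⟨y2, rfl⟩ := (E6I.cjE P H.hP).surjective y1
      change her σ g ((Ψ * conjP P H.hP (eK f) * Ψ⁻¹) (Ψ (cj P x2)))
        ((Ψ * conjP P H.hP (eK f) * Ψ⁻¹) (Ψ (cj P y2))) = her σ g (Ψ (cj P x2)) (Ψ (cj P y2))
      rw [e, e, h, S.hΨ, S.hΨ]
  have h5 := h4.trans h3
  rw [← qK_kapF (W := W) S.hε, comm_iff W.rel.σ2 W.rel.comm] at h5
  constructor
  · intro h
    have h6 := h5.1 ((mem_GO_iff W _).1 h).2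
    refine ⟨hf, fun X => ?_⟩
    have h7 := h6 X
    rwa [amap_kapF W, amap_kapF W] at h7
  · rintro ⟨_, h⟩
    refine (mem_GO_iff W _).2 ⟨h2, h5.2 fun X => ?_⟩
    rw [amap_kapF W, amap_kapF W]
    exact h X

theorem eK_mul (f f' : AlbL (KK ρ) a b c ≃ₗ[KK ρ] AlbL (KK ρ) a b c) :
    eK (f * f') = eK f * eK f' := extA_mul (k := KK ρ) (L := E) f f'

theorem eK_one : eK (1 : AlbL (KK ρ) a b c ≃ₗ[KK ρ] AlbL (KK ρ) a b c) = 1 :=
  extA_eq (k := KK ρ) (L := E) (g := (1 : AlbL (KK ρ) a b c ≃ₗ[KK ρ] AlbL (KK ρ) a b c)) (G := 1)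
    (fun _ => rfl)

/-- The homomorphism from the group over the quadratic extension. -/
noncomputable def SDt.hom (S : SDt H r A B φ κ ε Ψ) :
    GKJ (sK W.rel.σ2 W.rel.comm) p0 p1 p2 c (H64.umap (sK W.rel.σ2 W.rel.comm) φ)
      (algebraMap k (KK ρ) ε • (star (qmap (sK W.rel.σ2 W.rel.comm) (kapS W κ)) * kapS W κ)) →*
        GO ρ σ lam g a b c where
  toFun f := ⟨Ψ * conjP P H.hP (eK f.1) * Ψ⁻¹, (S.mem_iff f.2.1).2 f.2⟩
  map_one' := by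
    apply Subtype.ext
    change Ψ * conjP P H.hP (eK 1) * Ψ⁻¹ = 1
    rw [eK_one, map_one, mul_one, mul_inv_cancel]
  map_mul' f f' := by
    apply Subtype.ext
    change Ψ * conjP P H.hP (eK (f.1 * f'.1)) * Ψ⁻¹ =
      Ψ * conjP P H.hP (eK f.1) * Ψ⁻¹ * (Ψ * conjP P H.hP (eK f'.1) * Ψ⁻¹)
    rw [eK_mul, map_mul]
    group

/-- The elements of the stabilizer of the frame are in the image. -/
theorem SDt.exists_hom (S : SDt H r A B φ κ ε Ψ) {h : AlbL E a b c ≃ₗ[E] AlbL E a b c}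
    (hh : h ∈ GO ρ σ lam g a b c)
    (hfix : ∀ T : Matrix (Fin 3) (Fin 3) E, Tᵀ = T → z1 * T = T * z1ᵀ →
      h (Alb.act m⁻¹ (qK ρ κ) (ofF T)) = Alb.act m⁻¹ (qK ρ κ) (ofF T)) :
    ∃ f, (S.hom f : AlbL E a b c ≃ₗ[E] AlbL E a b c) = h := by
  have e : Ψ * (Ψ⁻¹ * h * Ψ) * Ψ⁻¹ = h := by group
  have h1 : Ψ⁻¹ * h * Ψ ∈
      E6I.GI (rhoK ρ) (unK W.ρlam) (up (KK ρ) a) (up (KK ρ) b) (up (KK ρ) c) := by
    rw [S.mem_GI, e]
    exact ((mem_GO_iff W _).1 hh).1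
  have h2 : ∀ T : Matrix (Fin 3) (Fin 3) E, Tᵀ = T → z1 * T = T * z1ᵀ →
      (Ψ⁻¹ * h * Ψ) (ofF T) = ofF T := by
    intro T hT hzT
    rw [LinearEquiv.mul_apply, LinearEquiv.mul_apply, S.hΨ, hfix T hT hzT, ← S.hΨ]
    exact Ψ.symm_apply_apply _
  obtain ⟨f, hf⟩ := E6I.Fx.exists_Psi (k := KK ρ) (L := E) (ρ := rhoK ρ) (lam := unK W.ρlam)
    (a := up (KK ρ) a) (b := up (KK ρ) b) (c := up (KK ρ) c)
    (p0 := algebraMap k (KK ρ) p0) (p1 := algebraMap k (KK ρ) p1) (p2 := algebraMap k (KK ρ) p2)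
    (fun t ht => ⟨mkK ht, rfl⟩) H.hP H.z1D H.zP h1 h2
  have h3 : Ψ * conjP P H.hP (eK f.1) * Ψ⁻¹ = h := by
    have h4 : conjP P H.hP (eK f.1) = Ψ⁻¹ * h * Ψ := hf
    rw [h4, e]
  have h4 := (S.mem_iff f.2).1 (by rw [h3]; exact hh)
  exact ⟨⟨f.1, h4⟩, h3⟩

/-- **The stabilizer of the frame is in the finite residual, if the group over the quadratic
extension has no subgroup of finite index.** -/
theorem SDt.mem_Res (S : SDt H r A B φ κ ε Ψ)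
    (hK : ∀ N : Subgroup (GKJ (sK W.rel.σ2 W.rel.comm) p0 p1 p2 c
      (H64.umap (sK W.rel.σ2 W.rel.comm) φ) (algebraMap k (KK ρ) ε •
        (star (qmap (sK W.rel.σ2 W.rel.comm) (kapS W κ)) * kapS W κ))), N.index ≠ 0 → N = ⊤)
    {h : AlbL E a b c ≃ₗ[E] AlbL E a b c} (hh : h ∈ GO ρ σ lam g a b c)
    (hfix : ∀ T : Matrix (Fin 3) (Fin 3) E, Tᵀ = T → z1 * T = T * z1ᵀ →
      h (Alb.act m⁻¹ (qK ρ κ) (ofF T)) = Alb.act m⁻¹ (qK ρ κ) (ofF T)) :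
    h ∈ Res ρ σ lam g a b c := by
  obtain ⟨f, hf⟩ := S.exists_hom hh hfix
  refine ⟨S.hom f, ?_, hf⟩
  rw [SetLike.mem_coe, Subgroup.mem_sInf]
  intro N hN
  have h1 : (N.comap S.hom).index ≠ 0 := by
    have : N.FiniteIndex := ⟨hN⟩
    rw [Subgroup.index_comap]
    exact Subgroup.FiniteIndex.index_ne_zero (H := N.subgroupOf _)
  have h2 : f ∈ N.comap S.hom := by
    rw [hK _ h1]
    exact Subgroup.mem_top f
  exact h2

end sd

end Vale.Agent.P011.E6W.H684
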