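import Vale.Agent.P011.E6W.H684.P1i
import Vale.Agent.P011.E6W.H183.PhiPos
import Vale.Agent.P011.E6W.H183.Sgn
import Vale.Agent.P011.E6W.H619.Open

/-!
Block E6W (B1): the pointwise stabilizers of the frames of the certificates are contained in the
finite residual.
-/

open Matrix Polynomial

set_option linter.unusedSectionVars false

namespace Vale.Agent.P011.E6W.H684

open Vale.Agent.P011.MPQ hiding mat
open Vale.Agent.P011.D4 Vale.Agent.P011.D4.Oct Vale.Agent.P011.E6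
open Vale.Agent.P011.E6.Alb
open Vale.Agent.P011.E6I (MQ toMQ toMQ_apply Mp S0 S1 S2 FixK S0_transpose S1_transpose
  S2_transpose cj amap_cj cj_inv InVs)
open Vale.Agent.P011.E6I.Fx (FixL MpL det_S0 mul_S0 eq_of_comm vP vP_comm det_vP P_mul_vP comm_vP
  extA extA_aup extA_mem conjP)
open Vale.Agent.P011.E6O (KK mkK KK_fix KK_ext InD InD0 um her GO Res)
open Vale.Agent.P011.E6W.H183 (adjM Rel WH rhoK unK exists_kW Cub ez)
open Vale.Agent.P011.E6W.H196 (dsc3)
open Vale.Agent.P011.E6W.H7 (smU cj_eq_act)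
open scoped ComplexConjugate

section aux

theorem adjugate_neg3 {F : Type} [Field F] (B : Matrix (Fin 3) (Fin 3) F) :
    (-B).adjugate = B.adjugate := by
  rw [← neg_one_smul F B, Matrix.adjugate_smul]
  norm_num

end aux

section sgn

variable {k E : Type} [Field k] [NumberField k] [Field E] [NumberField E] [Algebra k E]
  {ρ σ : E ≃ₐ[k] E} {lam : Eˣ} {g : Fin 3 → Eˣ} {th s : E} {kap a b c : kˣ}
  {W : WH ρ σ lam g th s kap a b c} {w : Qt a b} {u : kˣ} {p0 p1 p2 : k}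
  {z w' : MQ E a b} {m : (MQ E a b)ˣ} {z1 P : Matrix (Fin 3) (Fin 3) E}
  {H : FD W w u p0 p1 p2 z w' m z1 P} {r : Matrix (Fin 3) (Fin 3) E}
  {A B : Matrix (Fin 3) (Fin 3) k} {φ : (MQ (KK ρ) a b)ˣ} {κ : Qt (up (KK ρ) a) (up (KK ρ) b)}
  {ε : k} {Ψ : AlbL E a b c ≃ₗ[E] AlbL E a b c} (S : SDt H r A B φ κ ε Ψ)

include S

/-- The norm identity over the quadratic extension. -/
theorem SDt.norm : algebraMap k (KK ρ) (A * A - ((kap : k) * (u : k)) • (B * B)).det =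
    algebraMap k (KK ρ) (ε ^ 2) * (nrd (kapS W κ) * sK W.rel.σ2 W.rel.comm (nrd (kapS W κ))) := by
  have h1 := H.norm S.hrd S.hA S.hB S.hη rfl
  apply KK_ext
  rw [map_mul, map_mul, algebraMap_sK, kapS, nrd_qmap, algebraMap_sK, W.rel.σ2,
    ← IsScalarTower.algebraMap_apply, ← IsScalarTower.algebraMap_apply, ← h1, ← S.hκ, nrd_qK,
    ← S.hε, map_pow]
  ring

/-- **The sign.** -/
theorem SDt.sign (hd : dsc3 p0 p1 p2 ≠ 0) {y' : MQ E a b} (hyz : y' * z = z * y')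
    (hys : adjM σ g y' = -y') (hwy : w' * y' = -(y' * w')) {t : Fin 3 → k}
    (hyy : y' * y' = algebraMap k E (t 0) • (1 : MQ E a b) + algebraMap k E (t 1) • z +
      algebraMap k E (t 2) • z ^ 2) {τ : k →+* ℝ} (hk : τ kap < 0) (ha : τ a < 0) (hb : τ b < 0)
    (ht : ∀ x : ℝ, x ^ 3 + τ p2 * x ^ 2 + τ p1 * x + τ p0 = 0 →
      τ (t 0) + τ (t 1) * x + τ (t 2) * x ^ 2 < 0) :
    0 < τ (ε * (A.det + (kap : k) * (u : k) * (A * (-B).adjugate).trace)) := by
  obtain ⟨e, he, hek⟩ := H183.exists_e W hk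
  have hth : th * th = algebraMap k E (kap : k) := by rw [← pow_two]; exact W.th2
  have h1 := H183.sgnE σ g th kap a b u w p0 p1 p2 A B H.Q r τ e W.rel.σ2 W.rel.σg hth W.σth hd
    H.hw H.hww S.hA S.hB (by rw [← Mp_map]; exact S.hr) S.hrσ S.hrd
    (by rw [← S0_map]; exact S.hη) he hek ha hb
    (fun x hx => H183.phi_pos W H.hw H.hww H.zQ H.wQ S.hr S.hrd S.hA S.hB S.hη hyz hys hwy hyy hk
      ha hb hx (ht x hx))
  rw [adjugate_neg3]
  obtain ⟨n0, hn0⟩ : ∃ n0, n0 = A.det + (kap : k) * (u : k) * (A * B.adjugate).trace := ⟨_, rfl⟩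
  rw [← hn0] at h1 ⊢
  obtain ⟨G, hG⟩ : ∃ G : E, G = (g 0 : E) * g 1 * g 2 := ⟨_, rfl⟩
  obtain ⟨d, hd'⟩ : ∃ d : E, d = r.det := ⟨_, rfl⟩
  obtain ⟨D, hD⟩ : ∃ D : E, D = P.det := ⟨_, rfl⟩
  have hd0 : d ≠ 0 := by rw [hd']; exact S.hrd
  have hD0 : D ≠ 0 := by rw [hD]; exact H.hP
  have hσd : σ d = d := by
    have h3 : (r.map σ).det = σ r.det := (RingHom.map_det (σ : E →+* E) r).symm
    rw [hd', ← h3, S.hrσ]
  have h2 : algebraMap k E (ε * n0) * d ^ 2 =
      -(G * d * algebraMap k E n0) * (σ D * D) := by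
    rw [map_mul, S.hε, epE, ← hG, ← hD, ← hd']
    field_simp
  have h3 := congrArg e h2
  rw [map_mul e, hek, map_pow, map_mul e, map_neg, map_mul e (σ D), he] at h3
  obtain ⟨y, hy⟩ : ∃ y : ℝ, e d = (y : ℂ) := by
    have h4 : conj (e d) = e d := by rw [← he, hσd]
    obtain ⟨y, hy⟩ := Complex.conj_eq_iff_real.mp h4
    exact ⟨y, hy⟩
  have hy0 : y ≠ 0 := by
    rintro rfl
    rw [Complex.ofReal_zero] at hy
    exact hd0 ((_root_.map_eq_zero e).mp hy)
  have hN : 0 < Complex.normSq (e D) := Complex.normSq_pos.mpr ((_root_.map_ne_zero e).mpr hD0)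
  rw [← hG, ← hd'] at h1
  rw [hy, mul_comm (conj (e D)), Complex.mul_conj, ← Complex.ofReal_pow] at h3
  have h4 := congrArg Complex.re h3
  rw [Complex.re_mul_ofReal, Complex.re_mul_ofReal, Complex.ofReal_re, Complex.neg_re] at h4
  have h5 : 0 < τ (ε * n0) * y ^ 2 := by
    rw [h4]
    exact mul_pos (neg_pos.mpr h1) hN
  exact (mul_pos_iff_of_pos_right (by positivity)).1 h5

end sgn

section final

variable {k E : Type} [Field k] [NumberField k] [Field E] [NumberField E] [Algebra k E]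
  {ρ σ : E ≃ₐ[k] E} {lam : Eˣ} {g : Fin 3 → Eˣ} {th s : E} {kap a b c : kˣ}

/-- The octonion algebra is a division algebra over `k`. -/
theorem divk (W : WH ρ σ lam g th s kap a b c) : Division a b c := by
  intro x hx
  have h1 : oup E x = (0 : OctL E a b c) := by
    apply W.hdiv
    exact (norm_oup x).trans (by rw [hx, map_zero])
  exact Alb.oup_injective (h1.trans oup_zero.symm)

/-- **(B1).** The pointwise stabilizers of the frames of the certificates are contained in the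
finite residual. -/
theorem frame_res (W : WH ρ σ lam g th s kap a b c) (hK : KTop k (KK ρ))
    (hgood : ∀ τ : k →+* ℝ, τ a < 0 → τ b < 0 → τ c < 0)
    (hw0 : ∃ w0 : E →+* ℝ, w0 (algebraMap k E a) < 0 ∧ w0 (algebraMap k E b) < 0)
    {z i₁ j₁ : MQ E a b} {v : AlbL E a b c} {p₂ p₁ p₀ : k} {A B : Fin 3 → k}
    (C : Cert2 ρ σ lam g (kap : k) z i₁ j₁ v p₂ p₁ p₀ A B)
    {h : AlbL E a b c ≃ₗ[E] AlbL E a b c} (hh : h ∈ GO ρ σ lam g a b c) (hf : FixFr z v h) :
    h ∈ Res ρ σ lam g a b c := by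
  obtain ⟨u, w, w', y', t, hw, hww, hu, hu1, hu2, hu3, hu4, hwD, _, hwz, hyz, hws, hys, hww', hwy,
    hyy, ht⟩ := H964.exists_uw W C
  obtain ⟨m, z1, P, H, hirr⟩ := exists_FD W C hw hww hwD hwz hws hww'
  obtain ⟨r, A', B', φ, κ, ε, Ψ, S⟩ := H.exists_SD
  have hd0 : dsc p₂ p₁ p₀ ≠ 0 := by
    intro h0
    exact C.dsc (h0 ▸ IsSquare.zero)
  -- the frame
  have hc : Cub z (algebraMap k E p₂) (algebraMap k E p₁) (algebraMap k E p₀) := by
    refine ⟨C.cub, fun t' ht' => ?_⟩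
    obtain ⟨e0, e1, e2⟩ := C.ind _ _ _ ht'
    funext i
    fin_cases i
    · exact e0
    · exact e1
    · exact e2
  have hdE : dsc (algebraMap k E p₂) (algebraMap k E p₁) (algebraMap k E p₀) ≠ 0 := by
    have h1 : dsc (algebraMap k E p₂) (algebraMap k E p₁) (algebraMap k E p₀) =
        algebraMap k E (dsc p₂ p₁ p₀) := by
      rw [dsc, dsc]
      simp only [map_add, map_sub, map_mul, map_pow, map_ofNat]
    rw [h1]
    exact (_root_.map_ne_zero _).mpr hd0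
  have hunit := H619.fd_unit C.cub hdE
  refine S.mem_Res ?_ hh (fun T hT hzT => H.fix_ofF C.inV C.ne C.com hc hunit hf _ hT hzT)
  refine hK (sK W.rel.σ2 W.rel.comm) (thF W) (kap : k) a b c u w (-p₀) (-p₁) (-p₂) A' (-B') ε
    (kapS W κ) (H64.umap (sK W.rel.σ2 W.rel.comm) φ) (H183.setW W).rank (thF_sq W) (sK_thF W) hirr
    (by rw [dsc3_neg]; exact C.dsc) (by rw [dsc3_neg]; exact C.dsc') hu1 hu2
    (by rw [dsc3_neg]; exact hu3) (by rw [dsc3_neg]; exact hu4) hw hww (divk W) hu hgood ?_ S.hA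
    (by rw [Matrix.mul_neg, Matrix.neg_mul, S.hB]) ?_ S.hε0 ?_ ?_ ?_
  · obtain ⟨w0, h1, h2⟩ := hw0
    refine ⟨w0.comp (algebraMap k E), (hu _).2 ⟨h1, h2⟩, ?_⟩
    change 0 < w0 (algebraMap k E (kap : k))
    rw [← W.th2, map_pow]
    have h3 : w0 th ≠ 0 := (_root_.map_ne_zero w0).mpr W.th_ne
    positivity
  · intro i j
    have h1 : ((H64.umap (sK W.rel.σ2 W.rel.comm) φ : (MQ (KK ρ) a b)ˣ) : MQ (KK ρ) a b) =
        phE (thF W) w A' (-B') := by
      rw [H64.umap_val, S.hφ, phE_map, sK_thF, phE_neg]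
    rw [h1]
    rfl
  · rw [kapS, nrd_qmap]
    exact (_root_.map_ne_zero _).mpr S.nrd_ne
  · rw [neg_mul_neg]
    exact S.norm
  · intro τ hk hτu
    obtain ⟨ha, hb⟩ := (hu τ).1 hτu
    refine S.sign (by rw [dsc3_neg]; exact hd0) hyz hys hwy hyy hk ha hb (fun x hx => ?_)
    apply ht τ x _ hk ha hb
    rw [map_neg, map_neg, map_neg] at hx
    linear_combination hx

end final

end Vale.Agent.P011.E6W.H684
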