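import Vale.Agent.P011.D4Y.H62.KC
import Vale.Agent.P011.D4Y.H862.Bas

/-!
Block E6W, frames: the torus element which exchanges the two quadratic extensions.
-/

open Vale.Agent.P011.MPQ Vale.Agent.P011.D4 Vale.Agent.P011.D4.Oct Vale.Agent.P011.D4.H24
  Vale.Agent.P011.D4X Vale.Agent.P011.D4Y Vale.Agent.P011.E6

namespace Vale.Agent.P011.E6W.H684

section defs

variable {k M : Type} [Field k] [Field M] [Algebra k M]

/-- The semilinear map attached to `S` and `t`. -/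
def JS (ρ σ : M ≃ₐ[k] M) {a b c : kˣ} (S : Qt (up M a) (up M b)) (t : M) (x : OctL M a b c) :
    OctL M a b c :=
  zFun ρ S 1 t (omap σ x)

/-- The group of the automorphisms of the cyclic composition which commute with `JS` and with
the involution `I`. -/
def GS (ρ σ ι : M ≃ₐ[k] M) {a b : kˣ} (c : kˣ) (S : Qt (up M a) (up M b)) (t : M) :
    Subgroup (OctL M a b c ≃ₗ[M] OctL M a b c) where
  carrier := {g | (∀ x y, g (tri ρ x y) = tri ρ (g x) (g y)) ∧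
    (∀ x, g (JS ρ σ S t x) = JS ρ σ S t (g x)) ∧ ∀ x, g (Im ι x) = Im ι (g x)}
  mul_mem' := by
    rintro g h ⟨g1, g2, g3⟩ ⟨h1, h2, h3⟩
    refine ⟨fun x y => ?_, fun x => ?_, fun x => ?_⟩
    · rw [LinearEquiv.mul_apply, LinearEquiv.mul_apply, LinearEquiv.mul_apply, h1, g1]
    · rw [LinearEquiv.mul_apply, LinearEquiv.mul_apply, h2, g2]
    · rw [LinearEquiv.mul_apply, LinearEquiv.mul_apply, h3, g3]
  one_mem' := ⟨fun _ _ => rfl, fun _ => rfl, fun _ => rfl⟩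
  inv_mem' := by
    rintro g ⟨g1, g2, g3⟩
    have h : ∀ z, g (g⁻¹ z) = z := fun z => by
      rw [← LinearEquiv.mul_apply, mul_inv_cancel]; rfl
    refine ⟨fun x y => ?_, fun x => ?_, fun x => ?_⟩
    · apply g.injective
      rw [g1, h, h, h]
    · apply g.injective
      rw [g2, h, h]
    · apply g.injective
      rw [g3, h, h]

end defs

section zfun

variable {k E : Type} [Field k] [Field E] [Algebra k E] {a b c : kˣ} {ρ σ : E ≃ₐ[k] E}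

theorem omap_zFun (hσρ : ∀ x, σ (ρ x) = ρ (σ x)) (X w : Qt (up E a) (up E b)) (t : E)
    (y : OctL E a b c) :
    omap σ (zFun ρ X w t y) = zFun ρ (qmap σ X) (qmap σ w) (σ t) (omap σ y) := by
  have hc : ∀ y : Qt (up E a) (up E b), qmap σ (qmap ρ y) = qmap ρ (qmap σ y) := fun y => by
    apply QuaternionAlgebra.ext <;> exact hσρ _
  ext1
  · rw [fst_omap, fst_zFun, fst_zFun, fst_omap, qmap_mul, qmap_mul, qmap_star, hc, hc]
  · rw [snd_omap, snd_zFun, snd_zFun, snd_omap, qmap_smul, qmap_mul, qmap_mul, qmap_star, hc]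

theorem zFun_smulX (r : E) (X w : Qt (up E a) (up E b)) {t t' : E} (y : OctL E a b c)
    (h : t * ρ r = r * ρ (ρ r) * t') :
    zFun ρ (r • X) w t y = (r * ρ (ρ r)) • zFun ρ X w t' y := by
  ext1
  · rw [fst_zFun, fst_smul, fst_zFun, qmap_smul, qmap_smul, QuaternionAlgebra.star_smul,
      smul_mul_assoc, smul_mul_assoc, mul_smul_comm, smul_smul]
  · rw [snd_zFun, snd_smul, snd_zFun, qmap_smul, QuaternionAlgebra.star_smul,
      mul_smul_comm, smul_smul, smul_smul, h]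

end zfun

section tor

variable {k O : Type} [Field k] [Field O] [Algebra k O]

/-- The data over the big field: `φ` belongs to `F(θ√u)`. -/
structure HT (ρ σ τ ι : O ≃ₐ[k] O) (a : kˣ) (α φ φ' n : O) : Prop where
  al : α * α = algebraMap k O a
  ρα : ρ α = α
  σα : σ α = α
  τα : τ α = -α
  ια : ι α = α
  ρ3 : ∀ x, ρ (ρ (ρ x)) = x
  ι2 : ∀ x, ι (ι x) = x
  τ2 : ∀ x, τ (τ x) = x
  σ2 : ∀ x, σ (σ x) = x
  σρ : ∀ x, σ (ρ x) = ρ (σ x)
  τρ : ∀ x, τ (ρ x) = ρ (τ x)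
  στ : ∀ x, σ (τ x) = τ (σ x)
  ιρ : ∀ x, ι (ρ x) = ρ (ρ (ι x))
  ισ : ∀ x, ι (σ x) = σ (ι x)
  ιτ : ∀ x, ι (τ x) = τ (ι x)
  σφ : σ φ = φ'
  τφ : τ φ = φ'
  ιφ : ι φ = ρ (ρ φ)
  N : φ * ρ φ * ρ (ρ φ) = n
  ρn : ρ n = n
  σn : σ n = n
  τn : τ n = n
  ιn : ι n = n
  n0 : n ≠ 0

/-- The element of norm one. -/
def gam (φ φ' n : O) : O := φ ^ 2 * φ' / n

variable {ρ σ τ ι : O ≃ₐ[k] O} {a b c : kˣ} {α φ φ' n : O} (h : HT ρ σ τ ι a α φ φ' n)

namespace HT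

include h

theorem σφ' : σ φ' = φ := by rw [← h.σφ, h.σ2]

theorem τφ' : τ φ' = φ := by rw [← h.τφ, h.τ2]

theorem ιφ' : ι φ' = ρ (ρ φ') := by rw [← h.σφ, h.ισ, h.ιφ, h.σρ, h.σρ]

theorem N' : φ' * ρ φ' * ρ (ρ φ') = n := by
  have h1 := congrArg σ h.N
  rw [map_mul, map_mul, h.σρ, h.σρ, h.σρ, h.σφ, h.σn] at h1
  exact h1

theorem φ0 : φ ≠ 0 := by
  rintro rfl
  apply h.n0
  rw [← h.N, zero_mul, zero_mul]

theorem φ0' : φ' ≠ 0 := by
  rw [← h.σφ]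
  exact (map_ne_zero σ).2 h.φ0

theorem gam_ne : gam φ φ' n ≠ 0 :=
  div_ne_zero (mul_ne_zero (pow_ne_zero 2 h.φ0) h.φ0') h.n0

theorem N_gam : gam φ φ' n * ρ (gam φ φ' n) * ρ (ρ (gam φ φ' n)) = 1 := by
  have h0 := h.n0
  have h1 := h.N
  have h2 := h.N'
  simp only [gam, map_div₀, map_mul, map_pow, h.ρn]
  rw [div_mul_div_comm, div_mul_div_comm, div_eq_one_iff_eq (mul_ne_zero (mul_ne_zero h0 h0) h0)]
  linear_combination (φ' * ρ φ' * ρ (ρ φ') * (φ * ρ φ * ρ (ρ φ) + n)) * h1 + n ^ 2 * h2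

theorem φ_gam : φ * σ (gam φ φ' n) = φ' * gam φ φ' n := by
  rw [gam, map_div₀, map_mul, map_pow, h.σφ, h.σφ', h.σn]
  ring

theorem ι_gam : ι (gam φ φ' n) = ρ (ρ (gam φ φ' n)) := by
  simp only [gam, map_div₀, map_mul, map_pow, h.ιφ, h.ιφ', h.ιn, h.ρn]

theorem ι_ρgam : ι (ρ (gam φ φ' n)) = ρ (gam φ φ' n) := by
  rw [h.ιρ, h.ι_gam, h.ρ3]

theorem τ_gam : τ (gam φ φ' n) = φ' ^ 2 * φ / n := by
  rw [gam, map_div₀, map_mul, map_pow, h.τφ, h.τφ', h.τn]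

theorem ρgam_ne : ρ (gam φ φ' n) ≠ 0 := (map_ne_zero ρ).2 h.gam_ne

variable [NeZero (2 : O)]

/-- The torus element commutes with the product up to a scalar. -/
theorem tri (x y : OctL O a b c) :
    D4.tri ρ (zFun ρ (mq a b α (gam φ φ' n)) 1 (ρ (gam φ φ' n))⁻¹ x)
      (zFun ρ (mq a b α (gam φ φ' n)) 1 (ρ (gam φ φ' n))⁻¹ y) =
    ρ (gam φ φ' n) • zFun ρ (mq a b α (gam φ φ' n)) 1 (ρ (gam φ φ' n))⁻¹ (D4.tri ρ x y) := by
  have hg := h.gam_ne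
  have hN := h.N_gam
  set g := gam φ φ' n with hgd
  have hg1 : ρ g ≠ 0 := (map_ne_zero ρ).2 hg
  have hg2 : ρ (ρ g) ≠ 0 := (map_ne_zero ρ).2 hg1
  have hX : nrd (mq a b α g) = g := nrd_mq h.al g
  have h1 := zFun_tri (c := c) h.ρ3 (X := mq a b α g) (w := 1) (t := (ρ g)⁻¹) (qmap_one ρ)
    (by
      rw [hX, map_inv₀, map_inv₀, h.ρ3, nrd_one]
      field_simp
      linear_combination -hN)
    (by
      rw [hX, map_inv₀, map_inv₀, h.ρ3, inv_mul_cancel₀ hg, mul_inv_cancel₀ hg1])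
    (by
      rw [hX, map_inv₀, inv_mul_cancel₀ hg2, mul_inv_cancel₀ hg1]) x y
  rw [hX] at h1
  exact h1.symm

omit [NeZero (2 : O)] in
/-- The torus element commutes with the involution `I`. -/
theorem Im (x : OctL O a b c) :
    D4Y.Im ι (zFun ρ (mq a b α (gam φ φ' n)) 1 (ρ (gam φ φ' n))⁻¹ x) =
      zFun ρ (mq a b α (gam φ φ' n)) 1 (ρ (gam φ φ' n))⁻¹ (D4Y.Im ι x) := by
  refine (zFun_Im h.ι2 h.ρ3 h.ιρ ?_ (qmap_one ι) ?_ x).symm
  · rw [qmap_mq h.ια, qmap_mq h.ρα, qmap_mq h.ρα, h.ι_gam]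
  · rw [map_inv₀, h.ι_ρgam]

/-- The torus element carries `σ` to the map `JS`. -/
theorem hJS (x : OctL O a b c) :
    JS ρ σ (mk4 (up O a) (up O b) α φ φ' 0 0) (n / ρ (φ * φ'))
      (zFun ρ (mq a b α (gam φ φ' n)) 1 (ρ (gam φ φ' n))⁻¹ x) =
    (φ' * ρ (ρ φ')) • zFun ρ (mq a b α (gam φ φ' n)) 1 (ρ (gam φ φ' n))⁻¹ (omap σ x) := by
  have h1 : mk4 (up O a) (up O b) α φ φ' 0 0 * qmap σ (mq a b α (gam φ φ' n)) =
      φ' • mq a b α (gam φ φ' n) := by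
    rw [qmap_mq h.σα, mq_eq, diag_mul h.al, mul_one, h.φ_gam, mq_eq, smul_mk4, mul_one, mul_zero]
  rw [JS, omap_zFun h.σρ, zFun_mul, h1, qmap_one, mul_one]
  apply zFun_smulX
  have e1 := h.φ0
  have e2 := h.φ0'
  have e3 : ρ φ ≠ 0 := (map_ne_zero ρ).2 e1
  have e4 : ρ φ' ≠ 0 := (map_ne_zero ρ).2 e2
  have e5 := h.ρgam_ne
  have e6 : ρ (σ (gam φ φ' n)) ≠ 0 := (map_ne_zero ρ).2 ((map_ne_zero σ).2 h.gam_ne)
  have e7 := congrArg ρ h.φ_gam
  rw [map_mul, map_mul] at e7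
  have e8 := h.N'
  rw [map_inv₀, h.σρ, map_mul]
  field_simp
  linear_combination (-(φ' * ρ (ρ φ'))) * e7 - ρ (gam φ φ' n) * e8

/-- The torus element carries `τ` to the map `J` of the parameter `q`. -/
theorem hJq {q : O} (hq : gam φ φ' n * τ (gam φ φ' n) * q = 1) (x : OctL O a b c) :
    omap τ (zFun ρ (mq a b α (gam φ φ' n)) 1 (ρ (gam φ φ' n))⁻¹ x) =
    (ρ (gam φ φ' n) / q) • zFun ρ (mq a b α (gam φ φ' n)) 1 (ρ (gam φ φ' n))⁻¹
      (Jq τ α q (ρ q) x) := by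
  have hN := h.N_gam
  have g0 := h.gam_ne
  have g1 := h.ρgam_ne
  have hτ1 : τ (ρ (gam φ φ' n)) = ρ (τ (gam φ φ' n)) := h.τρ _
  have hr3 := h.ρ3 (gam φ φ' n)
  have hr3' := h.ρ3 (τ (gam φ φ' n))
  have hr3q := h.ρ3 q
  set g := gam φ φ' n with hg
  set g' := τ g with hg'
  have g2 : ρ (ρ g) ≠ 0 := (map_ne_zero ρ).2 g1
  have hq0 : q ≠ 0 := fun h0 => by
    rw [h0, mul_zero] at hq
    exact zero_ne_one hq
  have g0' : g' ≠ 0 := fun h0 => by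
    rw [h0, mul_zero, zero_mul] at hq
    exact zero_ne_one hq
  have g1' : ρ g' ≠ 0 := (map_ne_zero ρ).2 g0'
  have g2' : ρ (ρ g') ≠ 0 := (map_ne_zero ρ).2 g1'
  have hq1 : ρ q ≠ 0 := (map_ne_zero ρ).2 hq0
  have hq2 : ρ (ρ q) ≠ 0 := (map_ne_zero ρ).2 hq1
  have e1 := congrArg ρ hq
  have e2 := congrArg (fun x => ρ (ρ x)) hq
  simp only [map_mul, map_one] at e1 e2
  have hN' : g' * ρ g' * ρ (ρ g') = 1 := by
    have h1 := congrArg τ hN
    rw [map_mul, map_mul, h.τρ, h.τρ, h.τρ, map_one] at h1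
    exact h1
  have hqN : q * ρ q * ρ (ρ q) = 1 := by
    linear_combination (-(q * ρ q * ρ (ρ q))) * hN + (-(q * ρ q * ρ (ρ q)) * (g * ρ g * ρ (ρ g))) * hN' + hq * 1
      + (g * g' * q) * e1 + (g * g' * q) * (ρ g * ρ g' * ρ q) * e2
  have hmX : mq a b α g = mk4 (up O a) (up O b) α g 1 0 0 := mq_eq g
  have hr1 : qmap ρ (mk4 (up O a) (up O b) α g 1 0 0) =
      mk4 (up O a) (up O b) α (ρ g) 1 0 0 := by
    rw [qmap_mk4 h.ρα, map_one, map_zero]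
  have hr2 : qmap ρ (mk4 (up O a) (up O b) α (ρ g) 1 0 0) =
      mk4 (up O a) (up O b) α (ρ (ρ g)) 1 0 0 := by
    rw [qmap_mk4 h.ρα, map_one, map_zero]
  have ht : qmap τ (mk4 (up O a) (up O b) α g 1 0 0) =
      mk4 (up O a) (up O b) α 1 g' 0 0 := by
    rw [qmap_mk4' h.τα, map_one, map_zero]
  have ht1 : qmap ρ (mk4 (up O a) (up O b) α 1 g' 0 0) =
      mk4 (up O a) (up O b) α 1 (ρ g') 0 0 := by
    rw [qmap_mk4 h.ρα, map_one, map_zero]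
  have ht2 : qmap ρ (mk4 (up O a) (up O b) α 1 (ρ g') 0 0) =
      mk4 (up O a) (up O b) α 1 (ρ (ρ g')) 0 0 := by
    rw [qmap_mk4 h.ρα, map_one, map_zero]
  rw [omap_zFun h.τρ, hmX, ht, qmap_one]
  ext1
  · rw [fst_zFun, fst_smul, fst_zFun, fst_Jq, fst_omap, ht1, ht2, hr1, hr2, star_mk4, star_mk4,
      mq_eq, mq_eq, neg_zero]
    have a1 : mk4 (up O a) (up O b) α 1 g' 0 0 =
        g' • (mk4 (up O a) (up O b) α g 1 0 0 * mk4 (up O a) (up O b) α q 1 0 0) := by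
      rw [diag_mul h.al, smul_mk4, mul_zero, mul_one, mul_one]
      congr 1
      linear_combination -hq
    have a2 : mk4 (up O a) (up O b) α (ρ (ρ g')) 1 0 0 =
        (ρ (ρ g))⁻¹ • (mk4 (up O a) (up O b) α (q * ρ q) 1 0 0 *
          mk4 (up O a) (up O b) α 1 (ρ (ρ g)) 0 0) := by
      rw [diag_mul h.al, smul_mk4, mul_zero, mul_one, one_mul, inv_mul_cancel₀ g2]
      congr 1
      field_simp
      linear_combination (ρ (ρ g) * ρ (ρ g')) * (-hqN) + (q * ρ q) * e2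
    rw [a1, a2, smul_mul_assoc, smul_mul_assoc, mul_smul_comm, smul_smul]
    rw [show g' * (ρ (ρ g))⁻¹ = ρ g / q by
      field_simp
      linear_combination (-(g' * q)) * hN + (ρ g * ρ (ρ g)) * hq]
    simp only [mul_assoc]
  · rw [snd_zFun, snd_smul, snd_zFun, snd_Jq, snd_omap, ht1, hr1, star_mk4, star_mk4,
      mq_eq, mq_eq, star_mk4, neg_zero, one_mul, one_mul, mul_assoc, diag_mul h.al, diag_mul h.al,
      ← mul_smul_comm, ← mul_smul_comm, ← mul_smul_comm, smul_mk4, smul_mk4, smul_mk4, map_inv₀,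
      hτ1]
    congr 2
    · field_simp
    · field_simp
      linear_combination (-(ρ g * q)) * 0 * hN + (-1 : O) * e1
    · ring
    · ring



end HT

end tor

end Vale.Agent.P011.E6W.H684
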